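import Vale.Agent.P352NA.PF.Flow
import Vale.Agent.P352NA.LB

/-!
# P352NA, row PF
-/

set_option linter.all false

open Set Filter Topology
open scoped SchwartzMap

namespace Vale.Agent.P352X.Pf

open Vale.Agent.P352 Vale.Agent.P352.GF Vale.Agent.P352.H15 Vale.Agent.P352.H755
open Vale.Agent.P352.H246 (In)
open Vale.Agent.P352.SubConf (IsAdj)
open UniformSpace (Completion)
open Complex (I)
open TPD (TT)
open KDa (barL)
open G1 (Hs)
open EB (rh cph Reg Sg)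
open EB.NA (pe Pol Tr N0 COV g1 g1_act g1_U U_vac)
open EB.NA.Pe
open Real (exp)

noncomputable section

variable {D : Type*} [NormedAddCommGroup D] [InnerProductSpace ℂ D] {c : Ctx D}
  {φ φ' ψ ψ' : TT D} {B B' : Fld D} {g : Sg} {l : ℂ}

theorem fld_lin (h : c.Q.fld B) (f g : Sch) (a : ℂ) :
    B (ev (f + a • g)) c.Q.vac = B (ev f) c.Q.vac + a • B (ev g) c.Q.vac :=
  c.Q.lin B (ev f) (ev g) a c.Q.vac h ⟨f, rfl⟩ ⟨g, rfl⟩

/-- fields applied to the vacuum -/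
def fv (h : c.Q.fld B) : TT D := Completion.toComplL ∘L
  ⟨⟨⟨fun f => B (ev f) c.Q.vac, fun f g => by simpa using fld_lin h f g 1⟩, fun a f => by
    have z : B (ev 0) c.Q.vac = 0 := by simpa using fld_lin h 0 0 1
    simpa [z] using fld_lin h 0 f a⟩, c.Q.cont B _ h⟩

theorem fv_apply (h : c.Q.fld B) (f : Sch) : fv h f = (B (ev f) c.Q.vac : D) := rfl

theorem fv_tc (G : GRP c) (h : c.Q.fld B) : TC c (fv h) := fun a f => by
  have := c.Q.transl B a (ev (ST.tsl a f)) c.Q.vac h ⟨_, rfl⟩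
  rw [c.Q.U_vac _ _ _ one_pos H496.isLor_one] at this
  rw [fv_apply, fv_apply, this, Ut, G.coe _ _ _ _ one_pos H496.isLor_one]
  congr 3
  funext z
  simp [ev, ST.tsl_apply, sim_ut]

/-- pairs of true letters -/
def TrP (c : Ctx D) (φ φ' : TT D) : Prop :=
  ∀ K f, In K f → Tr c K (φ (sch f)) (φ' (sch (bar f)))

theorem TrP.symm (h : TrP c φ φ') : TrP c φ' φ := fun K f hf => by
  simpa only [Ap.bar_bar] using (h K _ hf.bar).symm

theorem TrP.add (h : TrP c φ φ') (h' : TrP c ψ ψ') : TrP c (φ + ψ) (φ' + ψ') :=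
  fun K f hf => .add _ _ _ _ (h K f hf) (h' K f hf)

theorem TrP.smul (z : ℂ) (h : TrP c φ φ') : TrP c (z • φ) (star z • φ') :=
  fun K f hf => .smul z _ _ (h K f hf)

theorem TrP.lc (G : GRP c) (h : TrP c φ φ') : Lc c φ φ' := fun r _ f h1 h2 => by
  obtain ⟨X, X', a, b, d⟩ := (h _ (ev f) ⟨⟨f, rfl⟩, h1, h2⟩).al
  rw [Ap.sch_ev] at b
  rw [← KDa.ev_barL, Ap.sch_ev] at d
  rw [b, d]
  exact G.pr_Al a

theorem fv_tr (h : c.Q.fld B) (h' : c.Q.fld B') (a : IsAdj B B') : TrP c (fv h) (fv h') :=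
  fun K f hf => by
  rw [fv_apply, fv_apply, Ap.ev_sch hf.1, Ap.ev_sch hf.bar.1]
  exact .fld _ _ _ h h' a hf

theorem dm_D (G : GRP c) {W : ℝ → Completion D →L[ℂ] Completion D} {ε : ℝ → V ≃L[ℝ] V}
    {X : V →L[ℝ] V} (k : Fl W ε X) {s : ℝ → ℝ} {L : ℝ → Ix → V} (h : ∀ t, 0 < s t ∧ IsLor (L t))
    (hW : ∀ t, W t = Ug c.Q (s t) (L t) 0) (he : ∀ t z, sim (s t) (L t) 0 z = ε t z) (s0 : s 0 = 1)
    (L0 : L 0 = GF.one) (v : D) : Dm W (v : Completion D) := by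
  have d := c.hN.toRep.der s L (fun _ => 0) X v s0 L0 rfl h fun n x => by
    simp only [he]
    exact ((pj n).hasFDerivAt.comp_hasDerivAt 0 (k.der.clm_apply (hasDerivAt_const _ x))).congr_deriv
      (by simp)
  simp only [Dm, hW, G.coe _ _ _ v (h _).1 (h _).2]
  exact (((Completion.toComplL : D →L[ℂ] Completion D).restrictScalars ℝ).hasFDerivAt.comp_hasDerivAt
    0 d).differentiableAt

/-- the scalings as similitudes -/
def gS (G : GRP c) (x y : ℝ) : Sg := ⟨_, _, 0, Real.sqrt_pos.2 (mul_pos (Real.exp_pos x)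
  (Real.exp_pos y)), (G.lsc _ _ (Real.exp_pos x) (Real.exp_pos y)).1⟩

/-- the null rotations as similitudes -/
def gG (G : GRP c) (w : R2) : Sg := ⟨1, _, 0, one_pos, (G.lga w).1⟩

theorem dm_S (G : GRP c) (x y : ℝ) (v : D) : Dm (Ws c x y) (v : Completion D) :=
  dm_D G (flS G x y) (fun t => ⟨(gS G (x * t) (y * t)).hs, (gS G (x * t) (y * t)).hL⟩)
    (fun _ => rfl) (fun t => (G.lsc _ _ (Real.exp_pos _) (Real.exp_pos _)).2) (by simp [gS])
    (funext fun m => by simp [gS, bst, GF.one]) v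

theorem dm_M (G : GRP c) (i : Fin 2) (v : D) : Dm (Mi c.Q i) (v : Completion D) :=
  dm_D G (flM G i) (fun t => ⟨one_pos, (G.lga (t • e2 i)).1⟩) (fun _ => rfl)
    (fun t => (G.lga _).2) rfl (funext fun m => by simp [H746.nrt, GF.one, GF.mdot]) v

/-- the orbit of a field -/
def Ob (c : Ctx D) (B : Fld D) (g : Sg) (ψ : TT D) : Prop :=
  ∀ f, ψ f = g.U c (B (g.pull (ev f)) c.Q.vac : D)

theorem Ob.ac (t : EB.E0 c) (h : Ob c B g ψ) (k : Sg) {e : V ≃L[ℝ] V} (he : ∀ z, k.act z = e z) :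
    Ob c B (k.mul g) (ac (k.U c) e ψ) := fun f => by
  rw [ac_apply, h, t.sg.U_mul, show g.pull (ev (pL e f)) = (k.mul g).pull (ev f) from
    funext fun z => congrArg f ((he _).symm.trans (t.sg.act_mul _ _ _).symm)]
  rfl

theorem Ob.unique (h : Ob c B g ψ) (h' : Ob c B g ψ') : ψ = ψ' :=
  ContinuousLinearMap.ext fun f => (h f).trans (h' f).symm

theorem start (t : EB.E0 c) (hc : COV c) (hB : c.Q.fld B) (hB' : c.Q.fld B') (hA : IsAdj B B') :
    ∃ F, Fam c F ∧ fv hB ∈ F ∧ ∀ ψ ∈ F, ∃ ψ' ∈ F, TrP c ψ ψ' := by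
  obtain ⟨-, n, C, C', κ, h1, -, h2⟩ := hc B B' hB hB' hA
  have p : ∀ (g : Sg) (f : Sch), g.inv.pull (g.pull (ev f)) = ev f := fun g f =>
    funext fun z => congrArg f (t.sg.act_inv g z)
  have o : ∀ g : Sg, Ob c B g (∑ i, κ g.inv i • fv (h1 i).1) ∧
      Ob c B' g (∑ i, star (κ g.inv i) • fv (h1 i).2.1) := fun g =>
    ⟨fun f => by
      rw [U_vac t g (h2 g.inv _ _ (t.sg.test g _ ⟨f, rfl⟩)).1, p]
      simp [fv_apply], fun f => by
      rw [U_vac t g (h2 g.inv _ _ (t.sg.test g _ ⟨f, rfl⟩)).2, p]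
      simp [fv_apply]⟩
  have tr : ∀ g : Sg, TrP c (∑ i, κ g.inv i • fv (h1 i).1)
      (∑ i, star (κ g.inv i) • fv (h1 i).2.1) := fun g K f hf => by
    simp only [ContinuousLinearMap.sum_apply]
    exact Tr.sum _ fun i _ => (fv_tr _ _ (h1 i).2.2).smul _ K f hf
  let S := {ψ | ∃ g, Ob c B g ψ ∨ Ob c B' g ψ}
  let R := range (fun i => fv (h1 i).1) ∪ range fun i => fv (h1 i).2.1
  have le : Submodule.span ℂ S ≤ Submodule.span ℂ R := Submodule.span_le.2 <| by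
    rintro ψ ⟨g, h | h⟩
    · exact h.unique (o g).1 ▸ Submodule.sum_mem _ fun i _ =>
        Submodule.smul_mem _ _ (Submodule.subset_span (.inl ⟨i, rfl⟩))
    · exact h.unique (o g).2 ▸ Submodule.sum_mem _ fun i _ =>
        Submodule.smul_mem _ _ (Submodule.subset_span (.inr ⟨i, rfl⟩))
  have tc : ∀ ψ ∈ Submodule.span ℂ R, TC c ψ := fun ψ hψ => by
    induction hψ using Submodule.span_induction with
    | mem _ h => rcases h with ⟨i, rfl⟩ | ⟨i, rfl⟩ <;> exact fv_tc t.grp _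
    | zero => exact .zero
    | add _ _ _ _ a b => exact a.add b
    | smul z _ _ a => exact a.smul z
  have par : ∀ ψ ∈ Submodule.span ℂ S, ∃ ψ' ∈ Submodule.span ℂ S, TrP c ψ ψ' := fun ψ hψ => by
    induction hψ using Submodule.span_induction with
    | mem _ h =>
      obtain ⟨g, h | h⟩ := h
      · exact ⟨_, Submodule.subset_span ⟨g, .inr (o g).2⟩, h.unique (o g).1 ▸ tr g⟩
      · exact ⟨_, Submodule.subset_span ⟨g, .inl (o g).1⟩, h.unique (o g).2 ▸ (tr g).symm⟩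
    | zero => exact ⟨0, zero_mem _, fun _ _ _ => .zero⟩
    | add _ _ _ _ a b =>
      obtain ⟨_, a1, a2⟩ := a
      obtain ⟨_, b1, b2⟩ := b
      exact ⟨_, add_mem a1 b1, a2.add b2⟩
    | smul z _ _ a =>
      obtain ⟨_, a1, a2⟩ := a
      exact ⟨_, Submodule.smul_mem _ _ a1, a2.smul z⟩
  haveI := FiniteDimensional.span_of_finite ℂ (A := R) ((finite_range _).union (finite_range _))
  refine ⟨Submodule.span ℂ S, ⟨Submodule.finiteDimensional_of_le le, fun ψ hψ => ?_⟩,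
    Submodule.subset_span ⟨g1, .inl fun f => ?_⟩, par⟩
  · induction hψ using Submodule.span_induction with
    | mem ψ h =>
      have m := Submodule.subset_span (R := ℂ) h
      obtain ⟨g, h⟩ := h
      have v : ∀ f, ∃ v : D, ψ f = v := fun f => by
        rcases h with h | h <;> exact ⟨_, (h f).trans (t.grp.coe _ _ _ _ g.hs g.hL)⟩
      refine ⟨tc ψ (le m), (par ψ m).imp fun _ a => ⟨a.1, a.2.lc t.grp⟩,
        fun x y => Submodule.subset_span ⟨(gS t.grp x y).mul g, ?_⟩,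
        fun w => Submodule.subset_span ⟨(gG t.grp w).mul g, ?_⟩, fun x y f => ?_, fun i f => ?_⟩
      · have e := (t.grp.lsc _ _ (Real.exp_pos x) (Real.exp_pos y)).2
        exact h.imp (fun a => a.ac t (gS t.grp x y) e) fun a => a.ac t (gS t.grp x y) e
      · have e := (t.grp.lga w).2
        exact h.imp (fun a => a.ac t (gG t.grp w) e) fun a => a.ac t (gG t.grp w) e
      · obtain ⟨v, hv⟩ := v f
        exact hv ▸ dm_S t.grp x y v
      · obtain ⟨v, hv⟩ := v f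
        exact hv ▸ dm_M t.grp i v
    | zero => exact .zero
    | add _ _ _ _ a b => exact a.add b
    | smul z _ _ a => exact a.smul z
  · rw [g1_U t.grp, show g1.pull (ev f) = ev f from funext fun z => congrArg f (g1_act z)]
    rfl

/-- polynomial families -/
def PQ (c : Ctx D) (φ φ' : TT D) : Prop := ∃ N : ℕ, ∀ f, In {z | be z < 0} f →
  ∃ η η' : ℝ → Completion D, η 0 = φ (sch f) ∧ η' 0 = φ' (sch (bar f)) ∧
    (∀ t, 0 ≤ t → Reg (-t) f → Tr c (cph t '' tsupport f) (η t) (η' t)) ∧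
    Pol N {t | 0 ≤ t ∧ Reg (-t) f} (fun t => c.SK t (η t)) ∧
    Pol N {t | 0 ≤ t ∧ Reg (-t) f} fun t => c.SK t (η' t)

theorem PQ.lin (h : PQ c φ φ') (h' : PQ c ψ ψ') (z : ℂ) :
    PQ c (φ + z • ψ) (φ' + star z • ψ') := by
  obtain ⟨N, h⟩ := h
  obtain ⟨M, h'⟩ := h'
  refine ⟨max N M, fun f hf => ?_⟩
  obtain ⟨η, η', a1, a2, a3, a4, a5⟩ := h f hf
  obtain ⟨ζ, ζ', b1, b2, b3, b4, b5⟩ := h' f hf
  refine ⟨fun t => η t + z • ζ t, fun t => η' t + star z • ζ' t, by simp [a1, b1], by simp [a2, b2],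
    fun t p q => .add _ _ _ _ (a3 t p q) (.smul z _ _ (b3 t p q)), ?_, ?_⟩
  · simpa using (a4.mono (le_max_left _ _)).add ((b4.mono (le_max_right _ _)).smul z)
  · simpa using (a5.mono (le_max_left _ _)).add ((b5.mono (le_max_right _ _)).smul (star z))

theorem PQ.zero : PQ c 0 0 := ⟨0, fun _ _ => ⟨0, 0, rfl, rfl, fun _ _ _ => .zero,
  by simpa using Pol.zero, by simpa using Pol.zero⟩⟩

theorem Ev.pq (t : N0 c) (h : Ev c l φ) (h' : φ' ∈ WW c) (k : TrP c φ φ') : PQ c φ φ' := by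
  refine ⟨⌈l.re⌉₊, fun f hf => ⟨fun s => φ (sch (pe (l.re - 4 - ⌈l.re⌉₊) (-s) f)),
    fun s => φ' (sch (pe (l.re - 4 - ⌈l.re⌉₊) (-s) (bar f))), by simp, by simp, fun s _ r => ?_,
    h.pol t.toT2 t.ee (Nat.le_ceil _) hf, ?_⟩⟩
  · simpa only [pe_bar, neg_neg] using k _ _ (in_img hf r)
  · have := (h.lc t.toT1 h' (k.lc t.grp)).pol t.toT2 t.ee (N := ⌈l.re⌉₊) (Nat.le_ceil _) hf.bar
    simp only [Reg, show tsupport (bar f) = tsupport f from Ap.tsupport_conj f] at this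
    exact this

end

end Vale.Agent.P352X.Pf

namespace Vale.Agent.P352X.EB.NA

open Pf

theorem pf_row {D : Type*} [NormedAddCommGroup D] [InnerProductSpace ℂ D] {c : Ctx D} (t : N0 c)
    (hc : COV c) : PF c := fun B B' hB hB' hA => by
  obtain ⟨F, hF, m, par⟩ := start t.toE0 hc hB hB' hA
  have k : ∀ ψ ∈ Submodule.span ℂ {ψ | ψ ∈ F ∧ ∃ l, Ev c l ψ},
      ∃ ψ' ∈ F, TrP c ψ ψ' ∧ PQ c ψ ψ' := fun ψ hψ => by
    induction hψ using Submodule.span_induction with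
    | mem ψ h =>
      obtain ⟨a, l, b⟩ := h
      obtain ⟨ψ', p, q⟩ := par ψ a
      exact ⟨ψ', p, q, b.pq t (hF.le p) q⟩
    | zero => exact ⟨0, zero_mem _, fun _ _ _ => .zero, .zero⟩
    | add _ _ _ _ a b =>
      obtain ⟨_, a1, a2, a3⟩ := a
      obtain ⟨_, b1, b2, b3⟩ := b
      exact ⟨_, add_mem a1 b1, a2.add b2, by simpa using a3.lin b3 1⟩
    | smul z _ _ a =>
      obtain ⟨_, a1, a2, a3⟩ := a
      exact ⟨_, F.smul_mem _ a1, a2.smul z, by simpa using PQ.zero.lin a3 z⟩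
  obtain ⟨ψ', p, q, N, h⟩ := k _ (hF.dec t.toT2 t.ee m)
  rw [(q.lc t.grp).unique t.toT1 ((fv_tr hB hB' hA).lc t.grp) (hF.mb _ p).tc (fv_tc t.grp _)] at h
  refine ⟨N, fun f hf => ?_⟩
  simpa only [fv_apply, Ap.ev_sch hf.1, Ap.ev_sch hf.bar.1] using h f hf

end Vale.Agent.P352X.EB.NA
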