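import Mathlib.Analysis.InnerProductSpace.Basic
import Mathlib.LinearAlgebra.Eigenspace.Basic

/-!
Abstract algebra for block PF: a complex vector space `V` with an injective map `ip` to an inner
product space and three operators `D, S, K`.  On a generalized eigenvector of `D` with eigenvalue
`lam` one has `D = lam` and `S = re lam`.
-/

namespace Vale.Agent.P352NA.PF

open Complex

variable {V H : Type*} [AddCommGroup V] [Module ℂ V] [NormedAddCommGroup H]
  [InnerProductSpace ℂ H]

/-- generalized eigenvector -/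
def Gen (D : V →ₗ[ℂ] V) (l : ℂ) (x : V) : Prop :=
  ∃ k : ℕ, ((D - l • (1 : V →ₗ[ℂ] V)) ^ k) x = 0

/-- the data of the abstract layer -/
structure AL (ip : V →ₗ[ℂ] H) (D S K : V →ₗ[ℂ] V) (c : ℂ) : Prop where
  inj : ∀ x, ip x = 0 → x = 0
  hc : c ≠ 0
  ds : ∀ x, D (S x) = S (D x)
  dk : ∀ x, D (K x) = K (D x) - (2 : ℂ) • K x
  ah : ∀ x y, inner ℂ (ip (S x - D x)) (ip y) = - inner ℂ (ip x) (ip (S y - D y))
  hk : ∀ x y, inner ℂ (ip (K y)) (ip x) + inner ℂ (ip y) (ip (K x))
    = c * (inner ℂ (ip (S y)) (ip x) - inner ℂ (ip y) (ip (S x)))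
  kil : ∀ (l : ℂ) x, l.re < 0 → D x = l • x → x = 0

theorem pow_succ_app (T : V →ₗ[ℂ] V) (k : ℕ) (x : V) : (T ^ (k + 1)) x = (T ^ k) (T x) := by
  rw [pow_succ]; rfl

theorem pow_succ_app' (T : V →ₗ[ℂ] V) (k : ℕ) (x : V) : (T ^ (k + 1)) x = T ((T ^ k) x) := by
  rw [pow_succ']; rfl

theorem sh_app (D : V →ₗ[ℂ] V) (l : ℂ) (x : V) :
    (D - l • (1 : V →ₗ[ℂ] V)) x = D x - l • x := rfl

/-- an operator shifting `D` by `a` shifts generalized eigenvectors -/
theorem pow_shift {D T : V →ₗ[ℂ] V} {a : ℂ} (h : ∀ x, D (T x) = T (D x) - a • T x) (l : ℂ)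
    (k : ℕ) (x : V) :
    ((D - (l - a) • (1 : V →ₗ[ℂ] V)) ^ k) (T x) = T (((D - l • (1 : V →ₗ[ℂ] V)) ^ k) x) := by
  induction k generalizing x with
  | zero => simp
  | succ k ih =>
    rw [pow_succ_app, pow_succ_app, ← ih]
    congr 1
    rw [sh_app, sh_app, h, map_sub, map_smul, sub_smul]
    abel

theorem Gen.shift {D T : V →ₗ[ℂ] V} {a : ℂ} (h : ∀ x, D (T x) = T (D x) - a • T x) {l : ℂ}
    {x : V} (hx : Gen D l x) : Gen D (l - a) (T x) := by
  obtain ⟨k, hk⟩ := hx
  exact ⟨k, by rw [pow_shift h, hk, map_zero]⟩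

theorem Gen.sh {D : V →ₗ[ℂ] V} {l : ℂ} {x : V} (hx : Gen D l x) : Gen D l (D x - l • x) := by
  obtain ⟨k, hk⟩ := hx
  refine ⟨k, ?_⟩
  rw [← sh_app, ← pow_succ_app, pow_succ_app', hk, map_zero]

theorem gen_of_eq {D : V →ₗ[ℂ] V} {l : ℂ} {x : V} (h : D x = l • x) : Gen D l x :=
  ⟨1, by rw [pow_one, sh_app, h, sub_self]⟩

/-- induction on the nilpotency order -/
theorem Gen.ind {D : V →ₗ[ℂ] V} {l : ℂ} (P : V → Prop) (h0 : P 0)
    (hs : ∀ x, Gen D l x → P (D x - l • x) → P x) {x : V} (hx : Gen D l x) : P x := by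
  obtain ⟨k, hk⟩ := hx
  induction k generalizing x with
  | zero =>
    have : x = 0 := by simpa using hk
    rw [this]; exact h0
  | succ k ih =>
    refine hs x ⟨k + 1, hk⟩ (ih ?_)
    rw [← sh_app, ← pow_succ_app, hk]

namespace AL

variable {ip : V →ₗ[ℂ] H} {D S K : V →ₗ[ℂ] V} {c : ℂ}

theorem neg (h : AL ip D S K c) {l : ℂ} (hl : l.re < 0) {x : V} (hx : Gen D l x) : x = 0 := by
  exact Gen.ind (fun x : V => x = (0 : V)) rfl
    (fun x _ hx => h.kil l x hl (sub_eq_zero.1 hx)) hx

theorem nz (h : AL ip D S K c) {x : V} (hx : inner ℂ (ip x) (ip x) = 0) : x = 0 :=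
  h.inj x (inner_self_eq_zero.1 hx)

/-- the antihermitian part -/
noncomputable def A (D S : V →ₗ[ℂ] V) (b : ℝ) : V →ₗ[ℂ] V :=
  S - D + (I * b) • (1 : V →ₗ[ℂ] V)

theorem A_app (b : ℝ) (x : V) : A D S b x = S x - D x + (I * b) • x := rfl

theorem A_ah (h : AL ip D S K c) (b : ℝ) (x y : V) :
    inner ℂ (ip (A D S b x)) (ip y) = - inner ℂ (ip x) (ip (A D S b y)) := by
  rw [A_app, A_app, map_add, map_add, inner_add_left, inner_add_right, h.ah, map_smul, map_smul,
    inner_smul_left, inner_smul_right]
  simp only [map_mul, conj_I, conj_ofReal]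
  ring

theorem A_D (h : AL ip D S K c) (b : ℝ) (x : V) : D (A D S b x) = A D S b (D x) := by
  rw [A_app, A_app, map_add, map_sub, h.ds, map_smul]

theorem S_eq (l : ℂ) (x : V) : S x = A D S l.im x + (l.re : ℂ) • x + (D x - l • x) := by
  rw [A_app]
  have : l = (l.re : ℂ) + I * l.im := by rw [mul_comm]; exact (re_add_im l).symm
  conv_rhs => rw [this]
  simp only [add_re, ofReal_re, mul_re, I_re, zero_mul, I_im, ofReal_im, mul_zero, sub_self,
    add_zero, add_im, mul_im, one_mul, zero_add, add_smul]
  abel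

theorem step1 (h : AL ip D S K c) (N : ℕ) :
    ∀ (l : ℂ), l.re < 2 * N → ∀ x, Gen D l x → A D S l.im x = 0 := by
  induction N with
  | zero =>
    intro l hl x hx
    rw [h.neg (by simpa using hl) hx, map_zero]
  | succ N ih =>
    intro l hl x hx
    have low : ∀ z, Gen D l z → A D S l.im (K z) = 0 := by
      intro z hz
      have h1 := ih (l - 2) (by push_cast at hl; simp; linarith) (K z) (hz.shift h.dk)
      simpa using h1
    refine Gen.ind (fun x => A D S l.im x = 0) (map_zero _) (fun φ _ hφ => ?_) hx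
    set a := A D S l.im with ha
    have hx1 : D (a φ) = l • a φ := by
      rw [map_sub, map_smul, ← h.A_D] at hφ
      exact sub_eq_zero.1 hφ
    have hy1 : D (a (a φ)) = l • a (a φ) := by
      rw [ha, h.A_D, ← ha, hx1, map_smul]
    have e := h.hk (a φ) (a (a φ))
    have e1 : inner ℂ (ip (K (a (a φ)))) (ip (a φ)) = 0 := by
      have := h.A_ah l.im (K (a (a φ))) φ
      rw [← ha, low _ (gen_of_eq hy1), map_zero, inner_zero_left] at this
      exact neg_eq_zero.1 this.symm
    have e2 : inner ℂ (ip (a (a φ))) (ip (K (a φ))) = 0 := by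
      have := h.A_ah l.im (a φ) (K (a φ))
      rw [← ha, low _ (gen_of_eq hx1), map_zero, inner_zero_right, neg_zero] at this
      exact this
    have s1 : S (a φ) = a (a φ) + (l.re : ℂ) • a φ := by
      rw [S_eq (D := D) l (a φ), hx1, sub_self, add_zero]
    have s2 : S (a (a φ)) = a (a (a φ)) + (l.re : ℂ) • a (a φ) := by
      rw [S_eq (D := D) l (a (a φ)), hy1, sub_self, add_zero]
    have e3 := h.A_ah l.im (a (a φ)) (a φ)
    rw [← ha] at e3
    rw [e1, e2, s1, s2, map_add, map_add, map_smul, map_smul, inner_add_left, inner_add_right,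
      inner_smul_left, inner_smul_right, e3, conj_ofReal] at e
    have e4 : inner ℂ (ip (a (a φ))) (ip (a (a φ))) = 0 := by
      have : c * (-2 * inner ℂ (ip (a (a φ))) (ip (a (a φ)))) = 0 := by
        rw [← add_zero (0 : ℂ), e]; ring
      rcases mul_eq_zero.1 this with h1 | h1
      · exact absurd h1 h.hc
      · simpa using h1
    have e5 := h.A_ah l.im φ (a φ)
    rw [← ha, h.nz e4, map_zero, inner_zero_right, neg_zero] at e5
    exact h.nz e5

theorem A0 (h : AL ip D S K c) {l : ℂ} {x : V} (hx : Gen D l x) : A D S l.im x = 0 := by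
  obtain ⟨N, hN⟩ := exists_nat_gt (l.re / 2)
  exact h.step1 N l (by linarith) x hx

theorem S_gen (h : AL ip D S K c) {l : ℂ} {x : V} (hx : Gen D l x) :
    S x = (l.re : ℂ) • x + (D x - l • x) := by
  rw [S_eq (D := D) l x, h.A0 hx, zero_add]

theorem step2 (h : AL ip D S K c) (N : ℕ) :
    ∀ (l : ℂ), l.re < 2 * N → ∀ x, Gen D l x → D x = l • x := by
  induction N with
  | zero =>
    intro l hl x hx
    rw [h.neg (by simpa using hl) hx, map_zero, smul_zero]
  | succ N ih =>
    intro l hl x hx
    push_cast at hl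
    -- order two
    have two : ∀ φ, Gen D l φ → D (D φ - l • φ) = l • (D φ - l • φ) → D φ = l • φ := by
      intro φ hφ hp
      set p := D φ - l • φ with hpd
      have kp : K p = 0 := by
        have h1 := ih (l - 2) (by simp; linarith) (K φ) (hφ.shift h.dk)
        rw [h.dk] at h1
        rw [hpd, map_sub, map_smul]
        rw [sub_smul] at h1
        have := sub_left_inj.1 h1
        rw [this, sub_self]
      have sp : S p = (l.re : ℂ) • p := by
        rw [h.S_gen (gen_of_eq hp), hp, sub_self, add_zero]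
      have orth : ∀ M : ℕ, ∀ j : ℕ, l.re - 2 * (j + 1) < 2 * M → ∀ z,
          Gen D (l - 2 * (j + 1)) z → inner ℂ (ip z) (ip p) = 0 := by
        intro M
        induction M with
        | zero =>
          intro j hj z hz
          rw [h.neg (by simpa using hj) hz, map_zero, inner_zero_left]
        | succ M ihM =>
          intro j hj z hz
          push_cast at hj
          have hj0 : (0 : ℝ) ≤ j := Nat.cast_nonneg j
          have hKz : Gen D (l - 2 * ((j + 1 : ℕ) + 1)) (K z) := by
            have := hz.shift h.dk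
            convert this using 1
            push_cast; ring
          have e1 := ihM (j + 1) (by push_cast; linarith) (K z) hKz
          have dz := ih _ (by simp; linarith) z hz
          have sz := h.S_gen hz
          rw [dz, sub_self, add_zero] at sz
          have e := h.hk p z
          rw [e1, kp, map_zero, inner_zero_right, sz, sp, map_smul, map_smul, inner_smul_left,
            inner_smul_right, conj_ofReal] at e
          have e2 : c * ((-2 * ((j : ℂ) + 1)) * inner ℂ (ip z) (ip p)) = 0 := by
            rw [← add_zero (0 : ℂ), e]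
            simp only [sub_re, mul_re, re_ofNat, add_re, natCast_re, one_re, im_ofNat, add_im,
              natCast_im, one_im, add_zero, mul_zero, sub_zero]
            push_cast; ring
          rcases mul_eq_zero.1 e2 with h1 | h1
          · exact absurd h1 h.hc
          · rcases mul_eq_zero.1 h1 with h2 | h2
            · exfalso
              have h3 : ((j : ℂ) + 1) ≠ 0 := by exact_mod_cast Nat.succ_ne_zero j
              exact mul_ne_zero (by norm_num) h3 h2
            · exact h2
      have e1 : inner ℂ (ip (K φ)) (ip p) = 0 := by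
        refine orth (N + 1) 0 (by push_cast; linarith) (K φ) ?_
        have := hφ.shift h.dk
        convert this using 1
        push_cast; ring
      have e := h.hk p φ
      rw [e1, kp, map_zero, inner_zero_right, h.S_gen hφ, sp, ← hpd, map_add, map_smul, map_smul,
        inner_add_left, inner_smul_left, inner_smul_right, conj_ofReal] at e
      have e2 : c * inner ℂ (ip p) (ip p) = 0 := by
        rw [← add_zero (0 : ℂ), e]; ring
      rcases mul_eq_zero.1 e2 with h1 | h1
      · exact absurd h1 h.hc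
      · exact sub_eq_zero.1 (h.nz h1)
    exact Gen.ind (fun x => D x = l • x) (by simp) (fun φ hφ hp => two φ hφ hp) hx

/-- no logarithms -/
theorem D_gen (h : AL ip D S K c) {l : ℂ} {x : V} (hx : Gen D l x) : D x = l • x := by
  obtain ⟨N, hN⟩ := exists_nat_gt (l.re / 2)
  exact h.step2 N l (by linarith) x hx

/-- the spin operator is the real part of the weight -/
theorem S_re (h : AL ip D S K c) {l : ℂ} {x : V} (hx : Gen D l x) : S x = (l.re : ℂ) • x := by
  rw [h.S_gen hx, h.D_gen hx, sub_self, add_zero]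

end AL

end Vale.Agent.P352NA.PF
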