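import Vale.Agent.P352NA.PF.Ext
import Vale.Agent.P352X.R.G1.A

/-!
# P352NA, block PF: operators on test functions, finite dimensional families
-/

set_option linter.all false

open Set Filter Topology
open scoped SchwartzMap

namespace Vale.Agent.P352X.Pf

open Vale.Agent.P352 Vale.Agent.P352.GF Vale.Agent.P352.H15
open UniformSpace (Completion)
open Complex (I)
open TPD (TT)
open KDa (dS mS barL)

noncomputable section

/-! ## test functions -/

/-- pull back -/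
def pL (e : V ≃L[ℝ] V) : Sch →L[ℂ] Sch := SchwartzMap.compCLMOfContinuousLinearEquiv ℂ e

theorem pL_apply (e : V ≃L[ℝ] V) (f : Sch) (z : V) : pL e f z = f (e z) := rfl

theorem cs_pL (e : V ≃L[ℝ] V) {f : Sch} (hf : HasCompactSupport f) : HasCompactSupport (pL e f) :=
  hf.comp_homeomorph e.toHomeomorph

theorem supp_pL (e : V ≃L[ℝ] V) (f : Sch) {z : V} (h : z ∈ tsupport (pL e f)) :
    e z ∈ tsupport f := tsupport_comp_subset_preimage f e.continuous h

theorem supp_tsl (a : V) (f : Sch) {z : V} (h : z ∈ tsupport (ST.tsl a f)) :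
    z - a ∈ tsupport f := tsupport_comp_subset_preimage f (continuous_sub_right a) h

theorem tsl_tsl (a b : V) (f : Sch) : ST.tsl a (ST.tsl b f) = ST.tsl (a + b) f := by
  ext z
  simp only [ST.tsl_apply, sub_sub]

theorem tsl_zero (f : Sch) : ST.tsl 0 f = f := by
  ext z
  simp only [ST.tsl_apply, sub_zero]

/-- linear vector fields -/
def vS (X : V →L[ℝ] V) : Sch →L[ℂ] Sch := ∑ m, mS ((pj m).comp X) ∘L dS (bas m 1)

theorem vS_apply (X : V →L[ℝ] V) (f : Sch) (z : V) : vS X f z = fderiv ℝ f z (X z) := by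
  rw [vS, ContinuousLinearMap.sum_apply, SchwartzMap.sum_apply]
  conv_rhs => rw [← Ap.sum_bas (X z)]
  simp [KDa.mS_apply, dS_apply]

/-- the transverse coordinates -/
def xL (i : Fin 2) : V →L[ℝ] ℝ := (ContinuousLinearMap.proj i).comp txL

@[simp] theorem xL_apply (i : Fin 2) (z : V) : xL i z = tx z i := rfl

theorem dS_mS (a : V) (l : V →L[ℝ] ℝ) (f : Sch) :
    dS a (mS l f) = mS l (dS a f) + (l a : ℂ) • f := by
  ext z
  have h := ((Complex.ofRealCLM.comp l).hasFDerivAt (x := z)).mul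
    (f.differentiableAt (x := z)).hasFDerivAt
  rw [dS_apply, show ⇑(mS l f) = _ from funext (KDa.mS_apply l f),
    show fderiv ℝ (fun z => (l z : ℂ) * f z) z = _ from h.fderiv]
  simp [KDa.mS_apply, dS_apply]
  ring

/-- `K` on test functions, dimension zero -/
def KS : Sch →L[ℂ] Sch := -(∑ i, dS va ∘L mS (xL i) ∘L mS (xL i) +
  (2 : ℂ) • dS vb ∘L mS beL ∘L mS beL + (2 : ℂ) • ∑ i, dS (ex i) ∘L mS beL ∘L mS (xL i))

theorem cK_eq (z : V) : cK va z = d2 (tx z) (tx z) • va + (2 * be z * be z) • vb +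
    (2 * be z * tx z 0) • ex 0 + (2 * be z * tx z 1) • ex 1 :=
  null_ext (by simp [G1.al_cK]) (by simp [G1.be_cK]) (by
    simp only [G1.tx_cK, tx_add, tx_smul, tx_va, tx_vb, tx_ex, smul_zero, zero_add]
    ext i
    fin_cases i <;> simp [e2])

theorem KS_apply (f : Sch) (z : V) :
    KS f z = -fderiv ℝ f z (cK va z) - 8 * be z * f z := by
  simp only [KS, Fin.sum_univ_two, ContinuousLinearMap.neg_apply, ContinuousLinearMap.add_apply,
    ContinuousLinearMap.smul_apply, ContinuousLinearMap.comp_apply, dS_mS, map_add, map_smul,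
    xL_apply, tx_va, tx_ex, e2_self, beL_apply, be_vb, be_ex]
  rw [cK_eq]
  simp [KDa.mS_apply, dS_apply, d2, e2]
  ring

theorem ev_KS (f : Sch) : ev (KS f) = Kc 0 (ev f) := funext fun z => by
  rw [G1.Kc_eq (f := ev f) f.differentiableAt]
  refine (KS_apply f z).trans ?_
  simp [ev]
  ring

theorem supp_mS (l : V →L[ℝ] ℝ) (f : Sch) : tsupport (mS l f) ⊆ tsupport f := by
  rw [show ⇑(mS l f) = _ from funext (KDa.mS_apply l f)]
  exact tsupport_mul_subset_right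

theorem supp_KS (f : Sch) : tsupport (KS f) ⊆ tsupport f := by
  rw [show ⇑(KS f) = _ from ev_KS f]
  exact (G1.lo_Kc 0).2 _

theorem supp_vS (X : V →L[ℝ] V) (f : Sch) : tsupport (vS X f) ⊆ tsupport f := by
  rw [show ⇑(vS X f) = _ from funext (vS_apply X f)]
  exact Api4.tsupport_fderiv_subset _ _

theorem bar_apply (f : Sch) (z : V) : barL f z = star (f z) := rfl

theorem bar_bar (f : Sch) : barL (barL f) = f := by
  ext z
  simp [bar_apply]

theorem bar_smul (a : ℂ) (f : Sch) : barL (a • f) = star a • barL f := by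
  ext z
  simp [bar_apply]

theorem bar_mS (l : V →L[ℝ] ℝ) (f : Sch) : barL (mS l f) = mS l (barL f) := by
  ext z
  simp [bar_apply, KDa.mS_apply]

theorem bar_KS (f : Sch) : barL (KS f) = KS (barL f) := by
  apply SchwartzMap.ext
  refine congrFun (show bar (ev (KS f)) = ev (KS (barL f)) from ?_)
  rw [ev_KS, ev_KS, KDa.ev_barL, G1.Kc_bar (f := ev f) f.differentiable]

theorem supp_bar (f : Sch) : tsupport (barL f) = tsupport f := Ap.tsupport_conj f

variable {H : Type*} [NormedAddCommGroup H] [NormedSpace ℂ H]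

theorem der_aff (Λ : Sch →L[ℂ] H) {g : ℝ → V →L[ℝ] V} {a : ℝ → V} {g' : V →L[ℝ] V} {a' : V}
    {F F' : Sch} {Ft : ℝ → Sch} (hg : HasDerivAt g g' 0) (ha : HasDerivAt a a' 0) (g0 : g 0 = 1)
    (a0 : a 0 = 0) (h : ∀ t x, Ft t x = F (g t x + a t))
    (h' : ∀ x, F' x = fderiv ℝ F x (g' x + a')) :
    HasDerivAt (fun t => Λ (Ft t)) (Λ F') 0 := by
  have d := (Λ.continuous.tendsto _).comp (Lie.der hg ha g0 a0 (.of_forall h) h')
  have e : Ft 0 = F := SchwartzMap.ext fun x => by simp [h, g0, a0]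
  rw [hasDerivAt_iff_tendsto_slope_zero]
  refine d.congr fun t => ?_
  simp [e]

theorem der_tsl (Λ : Sch →L[ℂ] H) (a : V) (f : Sch) :
    HasDerivAt (fun t : ℝ => Λ (ST.tsl (t • a) f)) (-Λ (dS a f)) 0 := by
  rw [← map_neg]
  exact der_aff Λ (F := f) (g := fun _ => 1) (a := fun t => -(t • a)) (hasDerivAt_const _ _)
    ((hasDerivAt_id' (0 : ℝ)).smul_const a).fun_neg rfl (by simp)
    (fun t x => by simp [ST.tsl_apply, sub_eq_add_neg]) fun x => by simp [dS_apply]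

theorem der_pL (Λ : Sch →L[ℂ] H) {e : ℝ → V ≃L[ℝ] V} {X : V →L[ℝ] V}
    (h : HasDerivAt (fun t => (e t : V →L[ℝ] V)) X 0) (e0 : ∀ z, e 0 z = z) (f : Sch) :
    HasDerivAt (fun t => Λ (pL (e t) f)) (Λ (vS X f)) 0 :=
  der_aff Λ (F := f) (a := fun _ => 0) h (hasDerivAt_const _ _) (ContinuousLinearMap.ext e0) rfl
    (fun t x => by simp [pL_apply]) fun x => by simp [vS_apply]

/-! ## finite dimensional families -/

/-- pointwise derivatives -/
def HD (A : ℝ → Sch →L[ℂ] H) (ψ : Sch →L[ℂ] H) : Prop :=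
  ∀ f, HasDerivAt (fun t => A t f) (ψ f) 0

theorem HD.unique {A : ℝ → Sch →L[ℂ] H} {ψ ψ' : Sch →L[ℂ] H} (h : HD A ψ) (h' : HD A ψ') :
    ψ = ψ' := ContinuousLinearMap.ext fun f => (h f).unique (h' f)

/-- the values -/
def vl (H : Type*) [NormedAddCommGroup H] [NormedSpace ℂ H] : (Sch →L[ℂ] H) →ₗ[ℂ] Sch → H where
  toFun φ := φ
  map_add' _ _ := rfl
  map_smul' _ _ := rfl

theorem vl_inj : Function.Injective (vl H) := fun _ _ h => DFunLike.coe_injective h

variable {E : Submodule ℂ (Sch →L[ℂ] H)} [FiniteDimensional ℂ E] {A : ℝ → Sch →L[ℂ] H}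

theorem slope_vl {u : Sch → H} (h : ∀ f, HasDerivAt (fun t => A t f) (u f) 0) :
    Tendsto (fun t : ℝ => vl H (((t⁻¹ : ℝ) : ℂ) • (A t - A 0))) (𝓝[≠] 0) (𝓝 u) :=
  tendsto_pi_nhds.2 fun f => by
    have := hasDerivAt_iff_tendsto_slope_zero.1 (h f)
    simp only [zero_add, ← Complex.coe_smul] at this
    exact this

theorem fd_mem (hA : ∀ t, A t ∈ E) {u : Sch → H} (h : ∀ f, HasDerivAt (fun t => A t f) (u f) 0) :
    ∃ ψ ∈ E, HD A ψ := by
  obtain ⟨ψ, h1, h2⟩ := (E.map (vl H)).closed_of_finiteDimensional.mem_of_tendsto (slope_vl h)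
    (.of_forall fun t => ⟨_, E.smul_mem _ (E.sub_mem (hA t) (hA 0)), rfl⟩)
  exact ⟨ψ, h1, fun f => by rw [show ψ f = u f from congrFun h2 f]; exact h f⟩

theorem fd_coord (hA : ∀ t, A t ∈ E) {ψ : Sch →L[ℂ] H} (hψ : ψ ∈ E) (h : HD A ψ)
    (l : E →ₗ[ℂ] ℂ) : HasDerivAt (fun t => l ⟨A t, hA t⟩) (l ⟨ψ, hψ⟩) 0 := by
  let j := Submodule.equivMapOfInjective (vl H) vl_inj E
  have c : Continuous (l ∘ₗ j.symm.toLinearMap) := LinearMap.continuous_of_finiteDimensional _
  have s : Tendsto (fun t : ℝ => j (((t⁻¹ : ℝ) : ℂ) • (⟨A t, hA t⟩ - ⟨A 0, hA 0⟩))) (𝓝[≠] 0)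
      (𝓝 (j ⟨ψ, hψ⟩)) := tendsto_subtype_rng.2 (slope_vl h)
  have := (c.tendsto _).comp s
  rw [hasDerivAt_iff_tendsto_slope_zero]
  simpa [Function.comp_def] using this

theorem fd_map (hA : ∀ t, A t ∈ E) {ψ : Sch →L[ℂ] H} (hψ : ψ ∈ E) (h : HD A ψ)
    (T : E →ₗ[ℂ] Sch →L[ℂ] H) {g : ℝ → Sch} {g' : Sch}
    (hg : ∀ Λ : Sch →L[ℂ] H, HasDerivAt (fun t => Λ (g t)) (Λ g') 0) :
    HasDerivAt (fun t => T ⟨A t, hA t⟩ (g t)) (T ⟨ψ, hψ⟩ (g 0) + T ⟨A 0, hA 0⟩ g') 0 := by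
  let b := Module.finBasis ℂ E
  have e : ∀ (x : E) f, T x f = ∑ i, b.coord i x • T (b i) f := fun x f => by
    conv_lhs => rw [← b.sum_repr x, map_sum, ContinuousLinearMap.sum_apply]
    simp only [map_smul, ContinuousLinearMap.smul_apply, Module.Basis.coord_apply]
  rw [e, e, ← Finset.sum_add_distrib, funext fun t => e ⟨A t, hA t⟩ (g t)]
  refine HasDerivAt.fun_sum fun i _ => ?_
  rw [add_comm]
  exact (fd_coord hA hψ h (b.coord i)).fun_smul (hg _)

end

end Vale.Agent.P352X.Pf
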