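import Vale.Agent.P352NA.PF.Rho
import Vale.Agent.P352X.Api1C

/-!
# P352NA, block PF: translation covariant distributions with local bounds are tempered
-/

set_option linter.all false

open MeasureTheory Set Filter Topology
open scoped SchwartzMap

namespace Vale.Agent.P352X.Pf

open Vale.Agent.P352 Vale.Agent.P352.GF
open UniformSpace (Completion)
open TPD (TT)

noncomputable section

theorem cont_of_bd {H : Type*} [NormedAddCommGroup H] [NormedSpace ℂ H] (L : Sch →ₗ[ℂ] H)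
    {q : Sch → ℝ} (hq : Continuous q) (q0 : q 0 = 0) (h : ∀ f, ‖L f‖ ≤ q f) : Continuous L := by
  refine continuous_of_continuousAt_zero L ?_
  rw [ContinuousAt, map_zero]
  exact squeeze_zero_norm h (q0 ▸ hq.tendsto 0)

/-- bounds on the test functions with support in `K` -/
def BD (K : Set V) (N : Sch → ℝ) : Prop :=
  ∃ q : Sch → ℝ, Continuous q ∧ q 0 = 0 ∧ ∀ f : Sch, tsupport f ⊆ K → N f ≤ q f

/-- equality on test functions with compact support -/
theorem ext_cs {G : Type*} [NormedAddCommGroup G] [NormedSpace ℂ G] {φ ψ : Sch →L[ℂ] G}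
    (h : ∀ f : Sch, HasCompactSupport f → φ f = ψ f) : φ = ψ := by
  ext1 f
  exact sub_eq_zero.1 (ST.vanish_of_compact (φ - ψ) f fun u hu _ => sub_eq_zero.2 (h u hu))

theorem cs_tsl {f : Sch} (hf : HasCompactSupport f) (a : V) : HasCompactSupport (ST.tsl a f) :=
  hf.comp_homeomorph (Homeomorph.subRight a)

/-- multiplication by a test function -/
def mu1 (χ : Sch) : Sch →L[ℂ] Sch := SchwartzMap.smulLeftCLM ℂ (χ : V → ℂ)

theorem mu1_apply (χ f : Sch) (z : V) : mu1 χ f z = χ z * f z :=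
  SchwartzMap.smulLeftCLM_apply_apply χ.hasTemperateGrowth f z

theorem supp_mu1 (χ f : Sch) : tsupport (mu1 χ f) ⊆ tsupport χ := by
  rw [show ⇑(mu1 χ f) = fun z => χ z * f z from funext (mu1_apply χ f)]
  exact tsupport_mul_subset_left

theorem ex_one {K : Set V} (hK : IsCompact K) : ∃ χ : Sch, HasCompactSupport χ ∧
    ∀ f : Sch, tsupport f ⊆ K → mu1 χ f = f := by
  obtain ⟨χ, a, -, b, -⟩ := Ap.ex_chi hK isOpen_univ (subset_univ _)
  refine ⟨sch fun z => (χ z : ℂ), Ap.cpt_sch (Ap.dc_cx a), fun f hf => ?_⟩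
  ext z
  rw [mu1_apply, Ap.sch_tst a]
  by_cases hz : z ∈ tsupport f
  · rw [(b z (hf hz)).self_of_nhds, Complex.ofReal_one, one_mul]
  · rw [image_eq_zero_of_notMem_tsupport hz, mul_zero]

/-- `(y, z) ↦ (z, z + y)` -/
def eA : (V × V) ≃L[ℝ] V × V := ContinuousLinearEquiv.equivOfInverse
  ((ContinuousLinearMap.snd ℝ V V).prod (.snd ℝ V V + .fst ℝ V V))
  ((ContinuousLinearMap.snd ℝ V V - .fst ℝ V V).prod (.fst ℝ V V)) (fun _ => by simp)
  fun _ => by simp

/-- `(y, z) ↦ (z - y, z)` -/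
def eB : (V × V) ≃L[ℝ] V × V := ContinuousLinearEquiv.equivOfInverse
  ((ContinuousLinearMap.snd ℝ V V - .fst ℝ V V).prod (.snd ℝ V V))
  ((ContinuousLinearMap.snd ℝ V V - .fst ℝ V V).prod (.snd ℝ V V)) (fun _ => by simp)
  fun _ => by simp

variable {D : Type*} [NormedAddCommGroup D] [InnerProductSpace ℂ D] {c : Ctx D}

/-- distributions on test functions with compact support -/
structure Loc0 (c : Ctx D) (ψ : Sch → Completion D) : Prop where
  add : ∀ f g : Sch, HasCompactSupport f → HasCompactSupport g → ψ (f + g) = ψ f + ψ g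
  smul : ∀ (a : ℂ) (f : Sch), HasCompactSupport f → ψ (a • f) = a • ψ f
  tra : ∀ a (f : Sch), HasCompactSupport f → Ut c.Q a (ψ f) = ψ (ST.tsl a f)
  bd : ∀ K, IsCompact K → BD K fun f => ‖ψ f‖

theorem Loc0.cut {ψ : Sch → Completion D} (h : Loc0 c ψ) {χ : Sch} (hχ : HasCompactSupport χ) :
    ∃ Λ : TT D, ∀ f, Λ f = ψ (mu1 χ f) := by
  have k : ∀ f, HasCompactSupport (mu1 χ f) := fun f =>
    hχ.of_isClosed_subset (isClosed_tsupport _) (supp_mu1 χ f)
  obtain ⟨q, q1, q2, hC⟩ := h.bd _ hχ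
  let L : Sch →ₗ[ℂ] Completion D := ⟨⟨fun f => ψ (mu1 χ f), fun f g => by
    rw [map_add, h.add _ _ (k f) (k g)]⟩, fun a f => by
      simp only [map_smul, RingHom.id_apply]
      exact h.smul a _ (k f)⟩
  exact ⟨⟨L, cont_of_bd L (q := fun f => q (mu1 χ f)) (q1.comp (mu1 χ).continuous) (by simp [q2])
    fun f => hC _ (supp_mu1 χ f)⟩, fun _ => rfl⟩

theorem int_ut (g : GRP c) (Λ : TT D) : ∃ Φ : 𝓢(V × V, ℂ) →ₗ[ℂ] Completion D,
    (∀ G, Φ G = ∫ y, Ut c.Q y (Λ (Api4.sl y G))) ∧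
      ∃ (m : ℕ) (C : ℝ), ∀ G, ‖Φ G‖ ≤ C * ST.sn _ ℂ m G := by
  have n : ∀ y v, ‖Ut c.Q y v‖ = ‖v‖ := fun y v => g.ug_norm _ _ _ v
  have i : ∀ G, Integrable fun y => Ut c.Q y (Λ (Api4.sl y G)) := fun G =>
    (Api4.par_sch volume G Λ).1.norm.mono' (g.ut_cont continuous_id
      (Λ.continuous.comp (Api4.continuous_sl' G))).aestronglyMeasurable
      (.of_forall fun y => (n _ _).le)
  obtain ⟨C, N, C0, hC⟩ := ST.clm_sn_c Λ
  refine ⟨⟨⟨fun G => ∫ y, Ut c.Q y (Λ (Api4.sl y G)), fun G G' => ?_⟩, fun a G => ?_⟩,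
    fun _ => rfl, N + (volume : Measure V).integrablePower,
    C * 2 ^ (N + (volume : Measure V).integrablePower) *
      ∫ y : V, ((1 + ‖y‖) ^ (volume : Measure V).integrablePower)⁻¹, fun G => ?_⟩
  · simp only [map_add]
    exact integral_add (i G) (i G')
  · simp only [map_smul, RingHom.id_apply]
    exact integral_smul a _
  · refine (norm_integral_le_of_norm_le ((Api4.integrable_w volume).const_mul
      (C * 2 ^ (N + (volume : Measure V).integrablePower) *
        ST.sn _ ℂ (N + (volume : Measure V).integrablePower) G))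
      (.of_forall fun y => ?_)).trans_eq ?_
    · rw [n]
      refine (hC _).trans ((mul_le_mul_of_nonneg_left (Api4.sn_sl G y N
        (volume : Measure V).integrablePower) C0).trans_eq ?_)
      ring
    · rw [integral_const_mul]
      ring

theorem Loc0.extend (g : GRP c) {ψ : Sch → Completion D} (h : Loc0 c ψ) :
    ∃ φ : TT D, TC c φ ∧ ∀ f : Sch, HasCompactSupport f → φ f = ψ f := by
  obtain ⟨ρ0, a, -, -, b⟩ := Ap.ex_rho (volume : Measure V) (x := 0) univ_mem
  set ρ : Sch := sch fun z => (ρ0 z : ℂ) with hρ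
  have r1 : HasCompactSupport ρ := Ap.cpt_sch (Ap.dc_cx a)
  have r2 : ∀ z, ρ z = ρ0 z := Ap.sch_tst a
  obtain ⟨χ, c1, c2⟩ := ex_one r1
  obtain ⟨Λ, hΛ⟩ := h.cut c1
  obtain ⟨Φ, hΦ, m, C, hC⟩ := int_ut g Λ
  let L : Sch →ₗ[ℂ] Completion D := Φ ∘ₗ (Api4.tenE eA ρ).toLinearMap
  have hL : Continuous L := cont_of_bd L (q := fun f => C * ST.sn _ ℂ m (Api4.tenE eA ρ f))
    (continuous_const.mul ((ST.continuous_sn m).comp (Api4.tenE eA ρ).continuous)) (by simp)
    fun f => hC _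
  have key : ∀ f : Sch, HasCompactSupport f → L f = ψ f := fun f hf => by
    obtain ⟨χ', d1, d2⟩ := ex_one hf
    obtain ⟨Λ', hΛ'⟩ := h.cut d1
    have e := (Api4.par_sch volume (Api4.tenE eB ρ f) Λ').2
    have e1 : Api4.pint volume (Api4.tenE eB ρ f) = f := by
      ext z
      rw [Api4.pint_apply]
      change ∫ y, ρ (z - y) * f z = _
      rw [integral_mul_const, integral_sub_left_eq_self (fun y => ρ y) volume z]
      simp only [r2]
      rw [integral_complex_ofReal, b]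
      simp
    rw [e1, hΛ', d2 f le_rfl] at e
    rw [e]
    refine (hΦ _).trans (integral_congr_ae (.of_forall fun y => ?_))
    have s1 : tsupport (Api4.sl y (Api4.tenE eA ρ f)) ⊆ tsupport ρ :=
      tsupport_mul_subset_left (f := fun z => ρ z) (g := fun z => f (z + y))
    have s2 : tsupport (Api4.sl y (Api4.tenE eB ρ f)) ⊆ tsupport f :=
      tsupport_mul_subset_right (f := fun z => ρ (z - y)) (g := fun z => f z)
    change Ut c.Q y (Λ (Api4.sl y (Api4.tenE eA ρ f))) = Λ' (Api4.sl y (Api4.tenE eB ρ f))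
    rw [hΛ, hΛ', c2 _ s1, d2 _ s2,
      h.tra y _ (r1.of_isClosed_subset (isClosed_tsupport _) s1)]
    congr 1
    ext z
    change ρ (z - y) * f (z - y + y) = ρ (z - y) * f z
    rw [sub_add_cancel]
  refine ⟨⟨L, hL⟩, fun a f => ?_, key⟩
  refine DFunLike.congr_fun (ext_cs (φ := Ut c.Q a ∘L ⟨L, hL⟩) (ψ := ⟨L, hL⟩ ∘L ST.tsl a)
    fun f hf => ?_) f
  change Ut c.Q a (L f) = L (ST.tsl a f)
  rw [key f hf, key _ (cs_tsl hf a), h.tra a f hf]

end

end Vale.Agent.P352X.Pf
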