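import Vale.Agent.P352NA.PF.Sym

/-!
# P352NA, block PF: the class of local distributions of finite type
-/

set_option linter.all false

open Set Filter Topology
open scoped SchwartzMap

namespace Vale.Agent.P352X.Pf

open Vale.Agent.P352 Vale.Agent.P352.GF Vale.Agent.P352.H15
open UniformSpace (Completion)
open Complex (I)
open TPD (TT)
open KDa (dS mS barL)
open Real (exp)

noncomputable section

variable {D : Type*} [NormedAddCommGroup D] [InnerProductSpace ℂ D] {c : Ctx D}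
  {φ φ' ψ : TT D} {E E' : Submodule ℂ (TT D)}

/-- members of a family -/
structure Mb (c : Ctx D) (E : Submodule ℂ (TT D)) (φ : TT D) : Prop where
  tc : TC c φ
  par : ∃ φ' ∈ E, Lc c φ φ'
  aS : ∀ x y, aS c x y φ ∈ E
  aG : ∀ w, aG c w φ ∈ E
  dS : ∀ x y f, Dm (Ws c x y) (φ f)
  dM : ∀ i f, Dm (Mi c.Q i) (φ f)

theorem Mb.mono (h : Mb c E φ) (k : E ≤ E') : Mb c E' φ :=
  ⟨h.tc, h.par.imp fun _ a => ⟨k a.1, a.2⟩, fun x y => k (h.aS x y), fun w => k (h.aG w), h.dS, h.dM⟩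

theorem Mb.zero : Mb c E 0 :=
  ⟨.zero, ⟨0, E.zero_mem, .zero⟩, fun _ _ => by simp, fun _ => by simp, fun _ _ _ => dm_zero,
    fun _ _ => dm_zero⟩

theorem Mb.add (h : Mb c E φ) (h' : Mb c E ψ) : Mb c E (φ + ψ) := by
  obtain ⟨a, a1, a2⟩ := h.par
  obtain ⟨b, b1, b2⟩ := h'.par
  exact ⟨h.tc.add h'.tc, ⟨a + b, E.add_mem a1 b1, a2.add b2⟩,
    fun x y => by rw [map_add]; exact E.add_mem (h.aS x y) (h'.aS x y),
    fun w => by rw [map_add]; exact E.add_mem (h.aG w) (h'.aG w),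
    fun x y f => (h.dS x y f).add (h'.dS x y f), fun i f => (h.dM i f).add (h'.dM i f)⟩

theorem Mb.smul (z : ℂ) (h : Mb c E φ) : Mb c E (z • φ) := by
  obtain ⟨a, a1, a2⟩ := h.par
  exact ⟨h.tc.smul z, ⟨_, E.smul_mem _ a1, a2.smul z⟩,
    fun x y => by rw [map_smul]; exact E.smul_mem _ (h.aS x y),
    fun w => by rw [map_smul]; exact E.smul_mem _ (h.aG w),
    fun x y f => (h.dS x y f).smul z, fun i f => (h.dM i f).smul z⟩

/-- families -/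
structure Fam (c : Ctx D) (E : Submodule ℂ (TT D)) : Prop where
  fd : FiniteDimensional ℂ E
  mb : ∀ φ ∈ E, Mb c E φ

theorem Fam.sup' (h : Fam c E) [FiniteDimensional ℂ E'] (h' : ∀ φ ∈ E', Mb c (E ⊔ E') φ) :
    Fam c (E ⊔ E') := by
  haveI := h.fd
  refine ⟨inferInstance, fun φ hφ => ?_⟩
  obtain ⟨a, a1, b, b1, rfl⟩ := Submodule.mem_sup.1 hφ
  exact ((h.mb a a1).mono le_sup_left).add (h' b b1)

theorem Fam.sup (h : Fam c E) (h' : Fam c E') : Fam c (E ⊔ E') :=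
  haveI := h'.fd
  h.sup' fun φ hφ => (h'.mb φ hφ).mono le_sup_right

/-- the class -/
def WW (c : Ctx D) : Submodule ℂ (TT D) where
  carrier := {φ | ∃ E, Fam c E ∧ φ ∈ E}
  add_mem' := fun ⟨_, a, b⟩ ⟨_, a', b'⟩ => ⟨_, a.sup a', Submodule.add_mem_sup b b'⟩
  zero_mem' := ⟨⊥, ⟨inferInstance, fun φ h => by rw [Submodule.mem_bot] at h; exact h ▸ .zero⟩,
    Submodule.zero_mem _⟩
  smul_mem' := fun z _ ⟨E, a, b⟩ => ⟨E, a, E.smul_mem z b⟩

theorem Fam.le (h : Fam c E) : E ≤ WW c := fun _ k => ⟨E, h, k⟩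

theorem mb_W (h : φ ∈ WW c) : Mb c (WW c) φ :=
  let ⟨_, a, b⟩ := h
  (a.mb φ b).mono a.le

open Classical in
/-- the pointwise derivative -/
def dr (A : ℝ → TT D) : TT D := if h : ∃ ψ, HD A ψ then h.choose else 0

theorem HD.dr_eq {A : ℝ → TT D} (h : HD A ψ) : dr A = ψ := by
  have k : ∃ ψ, HD A ψ := ⟨ψ, h⟩
  rw [dr, dif_pos k]
  exact k.choose_spec.unique h

theorem HD.ac {A : ℝ → TT D} (h : HD A ψ) (U : Completion D →L[ℂ] Completion D) (e : V ≃L[ℝ] V) :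
    HD (fun t => ac U e (A t)) (ac U e ψ) := fun f =>
  (U.restrictScalars ℝ).hasFDerivAt.comp_hasDerivAt 0 (h (pL e f))

theorem HD.scale {A : ℝ → TT D} (h : HD A ψ) (a : ℝ) :
    HD (fun t => A (a * t)) ((a : ℂ) • ψ) := fun f => by
  have := (show HasDerivAt (fun t => A t f) (ψ f) (a * 0) by rw [mul_zero]; exact h f).scomp 0
    ((hasDerivAt_id' (0 : ℝ)).const_mul a)
  rw [mul_one, ← Complex.coe_smul] at this
  exact this

theorem HD.lin {A B : ℝ → TT D} {ψ' : TT D} (h : HD A ψ) (h' : HD B ψ') (z : ℂ) :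
    HD (fun t => A t + z • B t) (ψ + z • ψ') := fun f => (h f).add ((h' f).const_smul z)

theorem HD.lc {A B : ℝ → TT D} {ψ' : TT D} (h : HD A ψ) (h' : HD B ψ')
    (k : ∀ t, Lc c (A t) (B t)) : Lc c ψ ψ' := fun r hr f h1 h2 =>
  Pr.deriv (l := 𝓝[≠] 0) le_rfl (.of_forall fun t => k t r hr f h1 h2) (h f) (h' _)

section fl

variable {W : ℝ → Completion D →L[ℂ] Completion D} {ε : ℝ → V ≃L[ℝ] V} {X : V →L[ℝ] V}

theorem Fl.ex (k : Fl W ε X) [FiniteDimensional ℂ E] (h : ∀ t, ac (W t) (ε t) φ ∈ E)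
    (d : ∀ f, Dm W (φ f)) : dr (fun t => ac (W t) (ε t) φ) ∈ E ∧
      HD (fun t => ac (W t) (ε t) φ) (dr fun t => ac (W t) (ε t) φ) := by
  obtain ⟨ψ, a, b⟩ := fd_mem h fun f => k.hd (d f).gn
  rw [b.dr_eq]
  exact ⟨a, b⟩

theorem Fl.two (k : Fl W ε X) [FiniteDimensional ℂ E] (h : ∀ t, ac (W t) (ε t) φ ∈ E)
    (d : ∀ f, Dm W (φ f)) (T T' : E →ₗ[ℂ] TT D) {a b : ℝ → ℂ} (ha : DifferentiableAt ℝ a 0)
    (hb : DifferentiableAt ℝ b 0)
    (e : ∀ t, ac (W t) (ε t) ψ = a t • T ⟨_, h t⟩ + b t • T' ⟨_, h t⟩) (f : Sch) :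
    Dm W (ψ f) := by
  obtain ⟨d1, d2⟩ := k.ex h d
  have := (ha.smul (fd_map h d1 d2 T (k.dneg f)).differentiableAt).add
    (hb.smul (fd_map h d1 d2 T' (k.dneg f)).differentiableAt)
  refine this.congr_of_eventuallyEq (.of_forall fun t => ?_)
  simp only [k.back (φ := ψ) t f, e t]
  rfl

theorem Fl.one (k : Fl W ε X) [FiniteDimensional ℂ E] (h : ∀ t, ac (W t) (ε t) φ ∈ E)
    (d : ∀ f, Dm W (φ f)) (h0 : φ ∈ E) (T : E →ₗ[ℂ] TT D) {a : ℝ → ℂ} {a' : ℂ}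
    (ha : HasDerivAt a a' 0) (a0 : a 0 = 1) (e : ∀ t, ac (W t) (ε t) ψ = a t • T ⟨_, h t⟩) :
    dr (fun t => ac (W t) (ε t) ψ) = T ⟨_, (k.ex h d).1⟩ + a' • T ⟨φ, h0⟩ := by
  obtain ⟨d1, d2⟩ := k.ex h d
  refine HD.dr_eq fun f => ?_
  have := ha.smul (fd_map h d1 d2 T (g := fun _ => f) (g' := 0) fun Λ => by
    rw [map_zero]; exact hasDerivAt_const _ _)
  simp only [e]
  refine this.congr_deriv ?_
  rw [a0, one_smul, map_zero, add_zero, show (⟨_, h 0⟩ : E) = ⟨φ, h0⟩ from Subtype.ext k.ac0]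
  rfl

end fl

/-- the generators of the scalings on distributions -/
def dl (c : Ctx D) (x y : ℝ) (φ : TT D) : TT D := dr fun t => aS c (x * t) (y * t) φ

/-- the generators of the null rotations on distributions -/
def mm (c : Ctx D) (i : Fin 2) (φ : TT D) : TT D := dr fun t => aG c (t • e2 i) φ

variable (g : GRP c)
include g

theorem Fam.dl (h : Fam c E) (k : φ ∈ E) (x y : ℝ) :
    dl c x y φ ∈ E ∧ HD (fun t => aS c (x * t) (y * t) φ) (dl c x y φ) :=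
  haveI := h.fd
  (flS g x y).ex (fun _ => (h.mb φ k).aS _ _) ((h.mb φ k).dS x y)

theorem Fam.mm (h : Fam c E) (k : φ ∈ E) (i : Fin 2) :
    mm c i φ ∈ E ∧ HD (fun t => aG c (t • e2 i) φ) (mm c i φ) :=
  haveI := h.fd
  (flM g i).ex (fun _ => (h.mb φ k).aG _) ((h.mb φ k).dM i)

theorem dl_W (k : φ ∈ WW c) (x y : ℝ) :
    dl c x y φ ∈ WW c ∧ HD (fun t => aS c (x * t) (y * t) φ) (dl c x y φ) :=
  let ⟨_, a, b⟩ := k
  ⟨a.le (a.dl g b x y).1, (a.dl g b x y).2⟩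

theorem mm_W (k : φ ∈ WW c) (i : Fin 2) :
    mm c i φ ∈ WW c ∧ HD (fun t => aG c (t • e2 i) φ) (mm c i φ) :=
  let ⟨_, a, b⟩ := k
  ⟨a.le (a.mm g b i).1, (a.mm g b i).2⟩

theorem gen_S (k : φ ∈ WW c) (x y : ℝ) (f : Sch) :
    I • gen (Ws c x y) (φ f) = dl c x y φ f - φ (vS (XS x y) f) :=
  (flS g x y).gn (dl_W g k x y).2 ((mb_W k).dS x y f)

theorem gen_M (k : φ ∈ WW c) (i : Fin 2) (f : Sch) :
    I • gen (Mi c.Q i) (φ f) = mm c i φ f - φ (vS (XM i) f) :=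
  (flM g i).gn (mm_W g k i).2 ((mb_W k).dM i f)

theorem dl_lin (k : φ ∈ WW c) (k' : ψ ∈ WW c) (z : ℂ) (x y : ℝ) :
    dl c x y (φ + z • ψ) = dl c x y φ + z • dl c x y ψ := by
  refine HD.dr_eq ?_
  simp only [map_add, map_smul]
  exact (dl_W g k x y).2.lin (dl_W g k' x y).2 z

theorem mm_lin (k : φ ∈ WW c) (k' : ψ ∈ WW c) (z : ℂ) (i : Fin 2) :
    mm c i (φ + z • ψ) = mm c i φ + z • mm c i ψ := by
  refine HD.dr_eq ?_
  simp only [map_add, map_smul]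
  exact (mm_W g k i).2.lin (mm_W g k' i).2 z

theorem dl_lc (k : φ ∈ WW c) (k' : φ' ∈ WW c) (h : Lc c φ φ') (x y : ℝ) :
    Lc c (dl c x y φ) (dl c x y φ') :=
  (dl_W g k x y).2.lc (dl_W g k' x y).2 fun _ => (syS g _ _).lc g h (mb_W k).tc (mb_W k').tc

theorem mm_lc (k : φ ∈ WW c) (k' : φ' ∈ WW c) (h : Lc c φ φ') (i : Fin 2) :
    Lc c (mm c i φ) (mm c i φ') :=
  (mm_W g k i).2.lc (mm_W g k' i).2 fun _ => (syG g _).lc g h (mb_W k).tc (mb_W k').tc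

theorem aS_mm (k : φ ∈ WW c) (x y : ℝ) (i : Fin 2) :
    aS c x y (mm c i φ) = (exp ((x - y) / 2) : ℂ) • mm c i (aS c x y φ) := by
  refine ((mm_W g k i).2.ac _ _).unique ?_
  have := (mm_W g ((mb_W k).aS x y) i).2.scale (exp ((x - y) / 2))
  simp only [mul_smul, ← aS_aG g] at this
  exact this

theorem aG_mm (k : φ ∈ WW c) (w : R2) (i : Fin 2) : aG c w (mm c i φ) = mm c i (aG c w φ) := by
  refine ((mm_W g k i).2.ac _ _).unique ?_
  have := (mm_W g ((mb_W k).aG w) i).2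
  simp only [aG_aG g, add_comm _ w] at this
  simp only [← aG_aG g] at this
  exact this

omit g in
/-- maps that are linear on the class -/
def mkL (F : TT D → TT D)
    (h : ∀ φ ψ (z : ℂ), φ ∈ WW c → ψ ∈ WW c → F (φ + z • ψ) = F φ + z • F ψ) :
    WW c →ₗ[ℂ] TT D where
  toFun x := F x
  map_add' x y := by simpa using h x y 1 x.2 y.2
  map_smul' z x := by
    have k : F 0 = 0 := by simpa using h 0 0 1 (zero_mem _) (zero_mem _)
    simpa [k] using h 0 x z (zero_mem _) x.2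

/-- commutation with the scalings -/
theorem dl_comm {F : TT D → TT D}
    (h : ∀ φ ψ (z : ℂ), φ ∈ WW c → ψ ∈ WW c → F (φ + z • ψ) = F φ + z • F ψ) (k : φ ∈ WW c)
    {x y a : ℝ} (e : ∀ t, aS c (x * t) (y * t) (F φ) =
      (exp (a * t) : ℂ) • F (aS c (x * t) (y * t) φ)) :
    dl c x y (F φ) = F (dl c x y φ) + (a : ℂ) • F φ := by
  obtain ⟨E, hE, k⟩ := k
  haveI := hE.fd
  have d : HasDerivAt (fun t => (exp (a * t) : ℂ)) a 0 := by
    simpa using ((hasDerivAt_id' (0 : ℝ)).const_mul a).exp.ofReal_comp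
  exact (flS g x y).one (fun _ => (hE.mb φ k).aS _ _) ((hE.mb φ k).dS x y) k
    (mkL F h ∘ₗ Submodule.inclusion hE.le) d (by simp) e

theorem dl_mm (k : φ ∈ WW c) (i : Fin 2) :
    dl c 0 1 (mm c i φ) = mm c i (dl c 0 1 φ) + ((-(1 / 2) : ℝ) : ℂ) • mm c i φ :=
  dl_comm g (fun _ _ z a b => mm_lin g a b z i) k fun t => by
    rw [aS_mm g k]
    congr 3
    ring

/-- new families -/
theorem new_W {F : TT D → TT D}
    (h : ∀ φ ψ (z : ℂ), φ ∈ WW c → ψ ∈ WW c → F (φ + z • ψ) = F φ + z • F ψ)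
    (tc : ∀ φ ∈ WW c, TC c (F φ)) (lc : ∀ φ ∈ WW c, ∀ φ' ∈ WW c, Lc c φ φ' → Lc c (F φ) (F φ'))
    {a : ℝ} (hS : ∀ φ ∈ WW c, ∀ x y, aS c x y (F φ) = (exp (a * y) : ℂ) • F (aS c x y φ)) {b : ℝ}
    (hG : ∀ φ ∈ WW c, ∀ w, aG c w (F φ) =
      F (aG c w φ) + ∑ i, ((b * w i : ℝ) : ℂ) • mm c i (aG c w φ))
    (k : φ ∈ WW c) : F φ ∈ WW c := by
  obtain ⟨E, hE, k⟩ := k
  haveI := hE.fd
  let T : E →ₗ[ℂ] TT D := mkL F h ∘ₗ Submodule.inclusion hE.le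
  have m : ∀ ψ ∈ E, F ψ ∈ E ⊔ LinearMap.range T := fun ψ hψ =>
    Submodule.mem_sup_right ⟨⟨ψ, hψ⟩, rfl⟩
  refine ⟨_, hE.sup' (E' := LinearMap.range T) ?_, m φ k⟩
  rintro _ ⟨⟨ψ, hψ⟩, rfl⟩
  have w := hE.le hψ
  have q := hE.mb ψ hψ
  obtain ⟨ψ', p1, p2⟩ := q.par
  refine ⟨tc ψ w, ⟨_, m ψ' p1, lc ψ w ψ' (hE.le p1) p2⟩, fun x y => ?_, fun v => ?_,
    fun x y f => ?_, fun i f => ?_⟩
  · exact (hS ψ w x y).symm ▸ Submodule.smul_mem _ _ (m _ (q.aS x y))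
  · exact (hG ψ w v).symm ▸ Submodule.add_mem _ (m _ (q.aG v)) (Submodule.sum_mem _ fun i _ =>
      Submodule.smul_mem _ _ (Submodule.mem_sup_left (hE.mm g (q.aG v) i).1))
  · refine (flS g x y).two (fun _ => q.aS _ _) (q.dS x y) T T
      (a := fun t => (exp (a * (y * t)) : ℂ)) (b := fun _ => 0) ?_ (differentiableAt_const _)
      (fun t => ?_) f
    · exact (((hasDerivAt_id' (0 : ℝ)).const_mul y).const_mul a).exp.ofReal_comp.differentiableAt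
    · rw [zero_smul, add_zero]
      exact hS ψ w _ _
  · refine (flM g i).two (fun _ => q.aG _) (q.dM i) T
      (mkL (mm c i) (fun _ _ z a b => mm_lin g a b z i) ∘ₗ Submodule.inclusion hE.le)
      (a := fun _ => 1) (b := fun t => ((b * t : ℝ) : ℂ)) (differentiableAt_const _) ?_
      (fun t => ?_) f
    · exact ((hasDerivAt_id' (0 : ℝ)).const_mul b).ofReal_comp.differentiableAt
    · rw [one_smul]
      refine (hG ψ w _).trans ?_
      rw [Finset.sum_eq_single i (fun j _ hj => by simp [e2, hj]) (by simp)]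
      simp only [Pi.smul_apply, e2_self, smul_eq_mul, mul_one]
      rfl

end

end Vale.Agent.P352X.Pf
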