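import Vale.Agent.P352NA.PF.AH
import Vale.Agent.P352NA.PE
import Vale.Agent.P352NA.POL

/-!
# P352NA, block PF: the flow of `K` on weight vectors
-/

set_option linter.all false

open Set Filter Topology
open scoped SchwartzMap ContDiff

namespace Vale.Agent.P352X.Pf

open Vale.Agent.P352 Vale.Agent.P352.GF Vale.Agent.P352.H15
open Vale.Agent.P352.H246 (In)
open UniformSpace (Completion)
open Complex (I)
open TPD (TT)
open KDa (dS mS barL)
open G1 (Hs)
open EB (rh cph Reg)
open EB.NA (pe Pol)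
open EB.NA.Pe EB.Ch0

noncomputable section

variable {D : Type*} [NormedAddCommGroup D] [InnerProductSpace ℂ D] {c : Ctx D}
  {φ : TT D} {g : Fn} {l : ℂ} {s e : ℝ} {N : ℕ} {O : Set V}

/-- multiplication by real functions -/
def mq (q : V → ℝ) (g : Fn) : Fn := fun z => (q z : ℂ) * g z

theorem supp_mq (q : V → ℝ) : tsupport (mq q g) ⊆ tsupport g := tsupport_mul_subset_right

theorem fam_q {q : ℝ → V → ℝ} (hg : Dc g) (hq : ∀ p : ℝ × V, rh p.1 p.2 ≠ 0 →
    ContDiffAt ℝ ∞ (fun p : ℝ × V => q p.1 p.2) p) :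
    Api4.Fam {t | Reg (-t) g} fun t => mq (q t) g := by
  refine Api4.fam_of_compact ((reg_open hg).preimage continuous_neg) (fun p hp => ?_) hg.2
    fun _ _ z hz => by rw [mq, image_eq_zero_of_notMem_tsupport hz, mul_zero]
  refine ContDiffAt.contDiffWithinAt ?_
  by_cases h : p.2 ∈ tsupport g
  · exact (Complex.ofRealCLM.contDiff.contDiffAt.comp p (hq p (by simpa using (hp.1 _ h).ne'))).mul
      (hg.1.comp contDiff_snd).contDiffAt
  · refine (contDiffAt_const (c := 0)).congr_of_eventuallyEq ?_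
    filter_upwards [((isClosed_tsupport g).preimage continuous_snd).isOpen_compl.mem_nhds h] with
      p hp
    rw [mq, image_eq_zero_of_notMem_tsupport hp, mul_zero]

theorem fam_t (hg : Dc g) (n : ℕ) :
    Api4.Fam {t | Reg (-t) g} fun t => mq (fun z => (t / rh t z) ^ n) g :=
  fam_q hg fun p h => (contDiffAt_fst.div smooth_rh.contDiffAt h).pow n

theorem in_r (hg : In O g) (h : Reg (-s) g) : In O (mq (fun z => (rh s z)⁻¹ ^ 2) g) :=
  Ap.in_of ((fam_q (q := fun t z => (rh t z)⁻¹ ^ 2) (Ap.in_dc hg)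
    fun p h => (smooth_rh.contDiffAt.inv h).pow 2).dc h) ((supp_mq _).trans hg.2.2)

theorem in_l (l : V →L[ℝ] ℝ) (hg : In O g) : In O (mq l g) :=
  Ap.in_mul (Complex.ofRealCLM.comp l).contDiff hg

theorem sch_l (l : V →L[ℝ] ℝ) (hg : Dc g) : sch (mq l g) = mS l (sch g) :=
  Ap.sch_eq fun z => by rw [KDa.mS_apply, Ap.sch_dc hg, mq]

theorem pe_r : pe e (-s) (mq (fun z => (rh s z)⁻¹ ^ 2) g) = pe (e + 2) (-s) g := funext fun z => by
  simp only [pe, mq]
  split_ifs with h
  · have := rh_inv h.ne'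
    rw [neg_neg] at this
    rw [this, inv_inv, Real.rpow_add h, Real.rpow_two]
    push_cast
    ring
  · rfl

theorem pe_n : pe (e + N) (-s) (mq (fun z => rh s z ^ N) g) = pe e (-s) g := funext fun z => by
  simp only [pe, mq]
  split_ifs with h
  · have := rh_inv h.ne'
    rw [neg_neg] at this
    rw [this, Real.rpow_add h, Real.rpow_natCast, ← mul_assoc, ← Complex.ofReal_mul, mul_assoc,
      ← mul_pow, mul_inv_cancel₀ h.ne', one_pow, mul_one]
  · rfl

theorem pe_x (i : Fin 2) : pe e s (mq (xL i) g) = mq (xL i) (pe (e - 1) s g) := funext fun z => by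
  simp only [pe, mq]
  split_ifs with h
  · rw [Real.rpow_sub_one h.ne', xL_apply, xL_apply, tx_cph]
    push_cast
    simp [div_eq_mul_inv]
    ring
  · simp

theorem sch_Kc (r : ℝ) (hg : Dc g) :
    sch (Kc r g) = KS (sch g) + (2 * r : ℂ) • mS beL (sch g) := Ap.sch_eq fun z => by
  have := congrFun (ev_KS (sch g)) z
  rw [Ap.ev_sch (Ap.in_univ hg).1] at this
  rw [SchwartzMap.add_apply, SchwartzMap.smul_apply, KDa.mS_apply, Ap.sch_dc hg,
    show KS (sch g) z = _ from this]
  simp [Kc]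
  ring

theorem der_t (hg : Dc g) (h : Reg (-s) g) (n : ℕ) (Λ : TT D) :
    HasDerivAt (fun t => Λ (sch (mq (fun z => (t / rh t z) ^ (n + 1)) g))) ((n + 1 : ℂ) •
      Λ (sch (mq (fun z => (s / rh s z) ^ n) (mq (fun z => (rh s z)⁻¹ ^ 2) g)))) s := by
  have k := in_r (Ap.in_univ hg) h
  refine ((fam_t hg (n + 1)).hasDerivAt Λ h).congr_deriv ?_
  rw [← map_smul, ← Api4.sch_const_mul _ ((fam_t (Ap.in_dc k) n).dc (reg_mono h (supp_mq _)))]
  congr 2
  funext z
  by_cases hz : z ∈ tsupport g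
  · have r : rh s z ≠ 0 := by simpa using (h z hz).ne'
    refine (((((hasDerivAt_id' s).fun_div (der_rh s z) r).fun_pow (n + 1)).ofReal_comp.mul_const
      (g z)).deriv).trans ?_
    have : 1 * rh s z - s * (2 * be z) = 1 := by rw [rh]; ring
    simp only [mq, this]
    push_cast
    simp
    ring
  · simp [mq, image_eq_zero_of_notMem_tsupport hz]

/-- the flow of `K` has finitely many terms -/
def FL (c : Ctx D) (N : ℕ) (r : ℝ) (φ : TT D) : Prop := ∃ B : ℕ → TT D, ∀ g, In (Hs 0) g →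
  ∀ t, 0 ≤ t → Reg (-t) g → c.SK t (φ (sch (pe (r - 4) (-t) g))) =
    ∑ n ∈ Finset.range N, B n (sch (mq (fun z => (t / rh t z) ^ n) g))

variable (t : T2 c) (E : EE c) (h : Ev c l φ)
include t E h

theorem der_K (hg : In (Hs 0) g) (hs : Reg (-s) g) :
    HasDerivAt (fun s => c.SK s (φ (sch (pe (l.re - 4) (-s) g)))) ((2 : ℂ) • ∑ i, c.SK s
      (mm c i φ (mS (xL i) (sch (pe (l.re - 4) (-s) g)))) +
        c.SK s (kp c φ (sch (pe (l.re - 4) (-s) g)))) s := by
  have k := in_be (e := l.re - 4) hg hs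
  have a : Ad 0 (sch (pe (l.re - 4) (-s) g)) := ⟨Ap.cpt_sch (Ap.in_dc k), by
    rw [Api4.tsupport_sch (Ap.in_dc k)]; exact k.2.2⟩
  refine (c.ugK.hasDerivAt_comp (hasDerivAt_id' s) ((hasDerivAt (Ap.in_dc hg) φ hs).scomp s
    (hasDerivAt_neg s)) (dm t h.mem a).gn).congr_deriv ?_
  rw [one_smul, ← map_smul, sub_add_cancel, gen_K t E h.mem a, sch_Kc _ (Ap.in_dc k), A0,
    h.sg t E]
  simp only [ContinuousLinearMap.add_apply, Fin.sum_univ_two, ContinuousLinearMap.smul_apply,
    ContinuousLinearMap.comp_apply, map_add, map_smul, ContinuousLinearMap.map_smul_of_tower]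
  push_cast
  module

theorem fl_step (hm : ∀ i, FL c N (l.re - 1) (mm c i φ)) (hk : FL c N (l.re - 2) (kp c φ)) :
    FL c (N + 1) l.re φ := by
  choose M hM using hm
  obtain ⟨K, hK⟩ := hk
  let B : ℕ → TT D := fun n => (n + 1 : ℂ)⁻¹ • ((2 : ℂ) • ∑ i, M i n ∘L mS (xL i) + K n)
  refine ⟨fun n => n.casesOn φ B, fun g hg T hT hr => ?_⟩
  have d : ∀ s ∈ Icc 0 T, HasDerivAt (fun s => c.SK s (φ (sch (pe (l.re - 4) (-s) g))) -
      ∑ n ∈ Finset.range N, B n (sch (mq (fun z => (s / rh s z) ^ (n + 1)) g))) 0 s :=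
    fun s hs => by
    have r := reg_of_le hg.2.2 hr hs.2
    have k := in_r hg r
    have r' : Reg (-s) (mq (fun z => (rh s z)⁻¹ ^ 2) g) := reg_mono r (supp_mq _)
    refine ((der_K t E h hg r).fun_sub (HasDerivAt.fun_sum fun n _ =>
      der_t (Ap.in_dc hg) r n (B n))).congr_deriv (sub_eq_zero.2 ?_)
    have a := hK _ k s hs.1 r'
    have b := fun i => hM i _ (in_l (xL i) k) s hs.1 (reg_mono r' (supp_mq _))
    rw [pe_r, show l.re - 2 - 4 + 2 = l.re - 4 by ring] at a
    have e : ∀ (i : Fin 2) n, mq (fun z => (s / rh s z) ^ n) (mq (xL i)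
        (mq (fun z => (rh s z)⁻¹ ^ 2) g)) = mq (xL i) (mq (fun z => (s / rh s z) ^ n)
          (mq (fun z => (rh s z)⁻¹ ^ 2) g)) := fun i n => funext fun z => mul_left_comm _ _ _
    simp only [pe_x, pe_r, show l.re - 1 - 4 - 1 + 2 = l.re - 4 by ring, e,
      fun i => sch_l (xL i) (inn (e := l.re - 4) (Ap.in_dc hg) r).1, fun i n => sch_l (xL i) ((fam_t (Ap.in_dc k) n).dc r')] at b
    simp only [a, b, B, Fin.sum_univ_two, ContinuousLinearMap.smul_apply, smul_smul,
      ContinuousLinearMap.add_apply, ContinuousLinearMap.comp_apply, ← Finset.sum_add_distrib,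
      Finset.smul_sum, mul_inv_cancel₀ (Nat.cast_add_one_ne_zero (R := ℂ) _), one_smul]
  have := constant_of_has_deriv_right_zero (fun s hs => (d s hs).continuousAt.continuousWithinAt)
    (fun s hs => (d s (Ico_subset_Icc_self hs)).hasDerivWithinAt) T (right_mem_Icc.2 hT)
  rw [Finset.sum_range_succ', eq_add_of_sub_eq this, add_comm]
  simp [c.ugK.zero, show mq (fun _ => 0) g = fun _ => 0 from funext fun z => by simp [mq],
    show mq (fun _ => 1) g = g from funext fun z => by simp [mq], Ap.sch_zero]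

theorem fl_all (hN : l.re < N) : FL c N l.re φ := by
  induction N generalizing l φ with
  | zero => exact ⟨0, fun g _ s _ _ => by simp [h.neg t E (by simpa using hN)]⟩
  | succ N ih =>
    push_cast at hN
    exact fl_step t E h (fun i => by simpa using ih (h.mm t.grp i) (by simp; linarith))
      (by simpa using ih (h.kp t E) (by simp; linarith))

omit t E h in
theorem pol_t {H : Type*} [AddCommGroup H] [Module ℂ H] {S : Set ℝ} {F : ℝ → H} (h : Pol N S F)
    (n : ℕ) : Pol (n + N) S fun t => (t : ℂ) ^ n • F t := by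
  obtain ⟨p, hp⟩ := h
  refine (EB.NA.Pol.sum (Finset.range (N + 1)) fun j hj => EB.NA.Pol.pow (j := n + j)
    (by rw [Finset.mem_range] at hj; omega) (p j)).congr fun t ht => ?_
  simp only [hp t ht, Finset.smul_sum, smul_smul, pow_add]

omit t E h in
theorem pol_r (hg : Dc g) (S : Set ℝ) (k : ℕ) : Pol k S fun t => sch (mq (fun z => rh t z ^ k) g) := by
  have d : ∀ t k, Dc (mq (fun z => rh t z ^ k) g) := fun t k =>
    Ap.in_dc (Ap.in_mul (Complex.ofRealCLM.contDiff.comp ((smooth_rh.comp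
      (contDiff_const.prodMk contDiff_id)).pow k)) (Ap.in_univ hg))
  induction k with
  | zero => simpa using EB.NA.Pol.const _
  | succ k ih =>
    refine ((ih.mono k.le_succ).add ((pol_t ((ih.map (mS beL).toLinearMap).smul 2) 1).mono
      (add_comm 1 k).le)).congr fun t _ => Ap.sch_eq fun z => ?_
    simp [KDa.mS_apply, Ap.sch_dc (d t k), mq]
    simp only [rh]
    push_cast
    ring

theorem Ev.pol (hN : l.re ≤ N) (hg : In (Hs 0) g) :
    Pol N {t | 0 ≤ t ∧ Reg (-t) g} fun t => c.SK t (φ (sch (pe (l.re - 4 - N) (-t) g))) := by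
  obtain ⟨B, hB⟩ := fl_all t E h (N := N + 1) (by push_cast; linarith)
  refine (EB.NA.Pol.sum (Finset.range (N + 1)) fun n hn => (pol_t ((pol_r (Ap.in_dc hg) _
    (N - n)).map (B n).toLinearMap) n).mono (by rw [Finset.mem_range] at hn; omega)).congr
      fun s hs => ?_
  have k : ∀ k, In (Hs 0) (mq (fun z => rh s z ^ k) g) := fun k =>
    Ap.in_mul (Complex.ofRealCLM.contDiff.comp ((smooth_rh.comp
      (contDiff_const.prodMk contDiff_id)).pow k)) hg
  rw [← pe_n (N := N), sub_add_cancel, hB _ (k N) s hs.1 (reg_mono hs.2 (supp_mq _))]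
  refine Finset.sum_congr rfl fun n hn => ?_
  rw [ContinuousLinearMap.coe_coe, ← map_smul, ← Api4.sch_const_mul _ (Ap.in_dc (k _))]
  congr 2
  funext z
  by_cases hz : z ∈ tsupport g
  · have r : (rh s z : ℂ) ≠ 0 := by simpa using (hs.2 z hz).ne'
    obtain ⟨m, rfl⟩ := Nat.exists_eq_add_of_le (Nat.lt_succ_iff.1 (Finset.mem_range.1 hn))
    simp only [mq, Nat.add_sub_cancel_left]
    push_cast
    rw [pow_add, div_pow]
    field_simp
  · simp [mq, image_eq_zero_of_notMem_tsupport hz]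

end

end Vale.Agent.P352X.Pf
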