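import Vale.Agent.P352NA.PF.Fam

/-!
# P352NA, block PF: the generator `K` on the class, the defect
-/

set_option linter.all false

open Set Filter Topology
open scoped SchwartzMap

namespace Vale.Agent.P352X.Pf

open Vale.Agent.P352 Vale.Agent.P352.GF Vale.Agent.P352.H15
open UniformSpace (Completion)
open Complex (I)
open TPD (TT)
open KDa (dS mS barL)
open G1 (Hs)

noncomputable section

variable {D : Type*} [NormedAddCommGroup D] [InnerProductSpace ℂ D] {c : Ctx D}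
  {φ : TT D} {f g : Sch} {y y' : V} {u u' : ℝ}

/-- compact support in `be < u` -/
def Ad (u : ℝ) (f : Sch) : Prop := HasCompactSupport f ∧ tsupport f ⊆ Hs u

theorem Ad.sub (h : Ad u f) (k : tsupport g ⊆ tsupport f) : Ad u g :=
  ⟨h.1.of_isClosed_subset (isClosed_tsupport _) k, k.trans h.2⟩

theorem Ad.le (h : Ad u f) (k : u ≤ u') : Ad u' f := ⟨h.1, fun _ hz => (h.2 hz).trans_le k⟩

theorem Ad.tsl (h : Ad u f) (a : V) (k : u + be a ≤ u') : Ad u' (ST.tsl a f) :=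
  ⟨cs_tsl h.1 a, fun z hz => by
    have := h.2 (supp_tsl a f hz)
    simp only [Hs, mem_setOf_eq, be_sub] at this ⊢
    linarith⟩

theorem Ad.lin (h : Ad u f) (h' : Ad u g) (a : ℂ) : Ad u (f + a • g) :=
  ⟨h.1.add h'.1.smul_left, (tsupport_add (f : V → ℂ) (a • g : Sch)).trans
    (union_subset h.2 ((tsupport_smul_subset_right (fun _ => a) g).trans h'.2))⟩

theorem ev_ad (hf : HasCompactSupport f) : ∀ᶠ u in atTop, Ad u f :=
  (G1.ex_hs hf).mono fun _ h => ⟨hf, h⟩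

/-- `K` with the centre `y` on test functions -/
def KY (y : V) : Sch →L[ℂ] Sch := ST.tsl y ∘L KS ∘L ST.tsl (-y)

theorem KY_apply (y : V) (f : Sch) (z : V) :
    KY y f z = -fderiv ℝ f z (cK va (z - y)) - 8 * (be z - be y) * f z := by
  change KS (ST.tsl (-y) f) (z - y) = _
  rw [KS_apply, ST.tsl_apply, show ⇑(ST.tsl (-y) f) = fun z => f (z + y) from
    funext fun z => by simp [ST.tsl_apply], fderiv_comp_add_right]
  simp

theorem tsl_mS (y : V) (l : V →L[ℝ] ℝ) (f : Sch) :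
    ST.tsl y (mS l (ST.tsl (-y) f)) = mS l f - (l y : ℂ) • f := by
  ext z
  simp [ST.tsl_apply, KDa.mS_apply]
  ring

/-- the defect -/
def R0 (c : Ctx D) (φ : TT D) (f : Sch) : Completion D :=
  I • gen c.SK (φ f) - φ (KS f) - (2 : ℂ) • ∑ i, mm c i φ (mS (xL i) f)

/-- the defect with the centre `y` -/
def RY (c : Ctx D) (φ : TT D) (y : V) (f : Sch) : Completion D :=
  Ut c.Q y (R0 c φ (ST.tsl (-y) f))

/-- the defect for `K(u)` -/
def R (c : Ctx D) (φ : TT D) (u : ℝ) : Sch → Completion D := RY c φ (u • vb)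

variable (t : T2 c) (h : φ ∈ WW c)
include t h

theorem dom {K : Set V} (hK : IsCompact K) (k : K ⊆ Hs 0) :
    (∀ f : Sch, tsupport f ⊆ K → Dm c.SK (φ f)) ∧ BD K fun f => ‖gen c.SK (φ f)‖ := by
  obtain ⟨s, r, r0, hr⟩ := G1.ex_cone hK k
  obtain ⟨C, hC⟩ := t.kd.a r r0
  obtain ⟨φ', -, p⟩ := (mb_W h).par
  have q : ∀ f : Sch, tsupport f ⊆ K → Dm c.SK (φ f) ∧ ‖gen c.SK (φ f)‖ ≤ C *
      (‖φ (ST.tsl (s • va) f)‖ + ‖φ' (barL (ST.tsl (s • va) f))‖ +
        ‖dl c 1 (-1) φ (ST.tsl (s • va) f) - φ (vS (XS 1 (-1)) (ST.tsl (s • va) f))‖) :=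
    fun f hf => by
    have b := (mb_W h).dS 1 (-1) (ST.tsl (s • va) f)
    have b' := gen_S t.grp h 1 (-1) (ST.tsl (s • va) f)
    rw [ws_bo] at b b'
    obtain ⟨a1, a2⟩ := hC _ _ (p r r0 _ (cs_tsl (hK.of_isClosed_subset (isClosed_tsupport _) hf) _)
      fun z hz => hr ⟨_, hf (supp_tsl _ _ hz), by simp⟩) b
    obtain ⟨a3, a4⟩ := a1.comm (t.grp.pa_S (-s))
    rw [Pa, (mb_W h).tc, tsl_tsl, neg_smul, neg_add_cancel, tsl_zero] at a3 a4
    rw [← b', norm_smul, Complex.norm_I, one_mul]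
    exact ⟨a3, by rwa [a4, Ut, t.grp.ug_norm]⟩
  exact ⟨fun f hf => (q f hf).1, _, by fun_prop, by simp, fun f hf => (q f hf).2⟩

theorem dm (hf : Ad 0 f) : Dm c.SK (φ f) := (dom t h hf.1 hf.2).1 f le_rfl

theorem gn_ky (hf : Ad (be y) f) :
    Gn (c.Ky y) (φ f) (Ut c.Q y (gen c.SK (φ (ST.tsl (-y) f)))) := by
  refine (t.grp.gn_Ky y).2 ?_
  rw [t.grp.ut_apply, neg_add_cancel, t.grp.ut0, (mb_W h).tc]
  exact (dm t h (hf.tsl _ (by simp))).gn

theorem ry_eq (hf : Ad (be y) f) : RY c φ y f = I • gen (c.Ky y) (φ f) - φ (KY y f) -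
    (2 : ℂ) • ∑ i, mm c i φ (mS (xL i) f - (tx y i : ℂ) • f) := by
  rw [RY, R0, map_sub, map_sub, map_smul, map_smul, map_sum, (gn_ky t h hf).gen_eq, (mb_W h).tc]
  simp only [fun i => (mb_W (mm_W t.grp h i).1).tc y, tsl_mS, xL_apply]
  rfl

theorem ry_a (hf : Ad 0 f) (s : ℝ) : RY c φ (s • va) f = R0 c φ f := by
  have e : c.Ky (s • va) = c.SK := funext fun r => by
    rw [Ctx.Ky, ← Pa, t.grp.pa_S, Pa, mul_assoc, ← t.grp.ut, add_neg_cancel, t.grp.ut0, mul_one]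
  rw [ry_eq t h (by simpa using hf), e, R0, show KY (s • va) f = KS f from
    SchwartzMap.ext fun z => by
      rw [KY_apply, KS_apply, show cK va (z - s • va) = cK va z from
        null_ext (by simp [G1.al_cK]) (by simp [G1.be_cK]) (by simp [G1.tx_cK])]
      simp]
  simp

theorem ry_x (hf : Ad 0 f) (x : R2) : RY c φ (tv x) f = R0 c φ f := by
  have m := fun i => congrArg (-I • ·) (gen_M t.grp h i f)
  simp only [neg_I_I] at m
  have p : Gn (Pa c.Q) _ _ := (mb_W h).tc.gn va f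
  have e : KY (tv x) f = KS f + (2 * x 0 : ℂ) • vS (XM 0) f + (2 * x 1 : ℂ) • vS (XM 1) f -
      (d2 x x : ℂ) • dS va f := by
    ext z
    rw [KY_apply, show cK va (z - tv x) = cK va z - (2 * d2 x (tx z)) • va - (2 * be z) • tv x +
      d2 x x • va from null_ext (by simp [G1.al_cK, d2_sub, d2_sub_l, d2_comm x]; ring)
        (by simp [G1.be_cK]) (by simp [G1.tx_cK, smul_sub]), tv_eq, d2_eq x (tx z)]
    simp [KS_apply, vS_apply, dS_apply, XM]
    ring
  rw [ry_eq t h (by simpa using hf),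
    (t.gen.ky x _ (dm t h hf) (fun i => (mb_W h).dM i f) p.dm).gen_eq, e, R0, p.gen_eq]
  simp only [Fin.sum_univ_two, m, map_add, map_sub, map_smul, ← Complex.coe_smul, tx_tv]
  push_cast
  match_scalars <;> simp [← mul_assoc] <;> ring_nf <;> simp

theorem ry_be (hf : Ad (be y) f) (e : be y' = be y) : RY c φ y' f = RY c φ y f := by
  have e' : y' = y + (al (y' - y) • va + tv (tx (y' - y))) :=
    null_ext (by simp) (by simp [e]) (by simp)
  have k : Ad 0 (ST.tsl (-y) f) := hf.tsl _ (by simp)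
  rw [RY.eq_def c φ y, ← ry_a t h k (al (y' - y)), RY.eq_def c φ (_ • va),
    ← ry_x t h (k.tsl _ (by simp)) (tx (y' - y)), RY.eq_def c φ (tv _), tsl_tsl, tsl_tsl,
    t.grp.ut_apply, t.grp.ut_apply, add_assoc, ← e', ← neg_add, ← neg_add, add_comm (tv _),
    add_comm _ y, ← e', RY]

theorem r_tra (hf : Ad u f) (a : V) :
    Ut c.Q a (R c φ u f) = R c φ (u + be a) (ST.tsl a f) := by
  rw [R, R, ← ry_be t h (y' := a + u • vb) (hf.tsl a (by simp)) (by simp [add_comm]), RY, RY,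
    t.grp.ut_apply, tsl_tsl, show -(a + u • vb) + a = -(u • vb) by abel]

theorem r_lin (hf : Ad u f) (hg : Ad u g) (a : ℂ) :
    R c φ u (f + a • g) = R c φ u f + a • R c φ u g := by
  have k := dm t h (hf.tsl (-(u • vb)) (u' := 0) (by simp))
  have k' := dm t h (hg.tsl (-(u • vb)) (u' := 0) (by simp))
  simp only [R, RY, R0, map_add, map_smul, gen_add k (k'.smul a), gen_smul a k', map_sub,
    Fin.sum_univ_two]
  module

theorem r_bd {K : Set V} (hK : IsCompact K) (k : K ⊆ Hs u) : BD K fun f => ‖R c φ u f‖ := by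
  obtain ⟨q, q1, q2, q3⟩ := (dom t h (hK.image (f := fun z => z - u • vb) (by fun_prop)) (by
    rintro _ ⟨z, hz, rfl⟩
    simpa [Hs] using k hz)).2
  have ct := (ST.tsl (E := V) (-(u • vb))).continuous
  refine ⟨fun f => q (ST.tsl (-(u • vb)) f) + ‖φ (KS (ST.tsl (-(u • vb)) f))‖ +
    ‖(2 : ℂ) • ∑ i, mm c i φ (mS (xL i) (ST.tsl (-(u • vb)) f))‖, ((q1.comp ct).add
      ((φ ∘L KS).continuous.comp ct).norm).add (Continuous.norm (Continuous.fun_const_smul
        (continuous_finset_sum _ fun i _ => (mm c i φ ∘L mS (xL i)).continuous.comp ct) _)),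
    by simp [q2], fun f hf => ?_⟩
  beta_reduce
  rw [R, RY, Ut, t.grp.ug_norm, R0]
  refine norm_sub_le_of_le (norm_sub_le_of_le ?_ le_rfl) le_rfl
  rw [norm_smul, Complex.norm_I, one_mul]
  exact q3 _ fun z hz => ⟨_, hf (supp_tsl _ _ hz), by simp⟩

omit t h in
theorem KY_b (u : ℝ) (f : Sch) : KY (u • vb) f = KS f + (u : ℂ) • ((4 : ℂ) • vS (XS 0 1) f +
    (8 : ℂ) • f) - (2 * u ^ 2 : ℂ) • dS vb f := by
  ext z
  rw [KY_apply, show cK va (z - u • vb) = cK va z - (4 * u) • XS 0 1 z + (2 * u ^ 2) • vb from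
    null_ext (by simp [G1.al_cK, XS]) (by simp [G1.be_cK, XS]; ring) (by
      simp [G1.tx_cK, XS]
      module)]
  simp [KS_apply, vS_apply, dS_apply]
  ring

theorem r_aff (E : EE c) {lo : ℝ} (hf : Ad lo f) (hi : ℝ) :
    ∃ A B, ∀ u ∈ Ioo lo hi, R c φ u f = A + (u : ℂ) • B := by
  have k : ∀ u ∈ Ioo lo hi, Ad (be (u • vb)) f := fun u hu => hf.le (by simpa using hu.1.le)
  have p : Gn (Pb c.Q) _ _ := (mb_W h).tc.gn vb f
  obtain ⟨k0, k1, e⟩ := E lo hi (φ f) (fun u hu => (gn_ky t h (k u hu)).dm) p.dm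
  refine ⟨I • k0 - φ (KS f) - (2 : ℂ) • ∑ i, mm c i φ (mS (xL i) f),
    I • k1 - φ ((4 : ℂ) • vS (XS 0 1) f + (8 : ℂ) • f), fun u hu => ?_⟩
  rw [R, ry_eq t h (k u hu), e u hu, p.gen_eq, KY_b]
  simp only [map_add, map_sub, map_smul, tx_smul, tx_vb, smul_zero, Pi.zero_apply,
    Complex.ofReal_zero, zero_smul, sub_zero]
  push_cast
  match_scalars <;> simp [← mul_assoc] <;> ring_nf <;> simp

end

end Vale.Agent.P352X.Pf
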