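import Vale.Agent.P352NA.PF.Kr1

/-!
# P352NA, block PF: the operators `S` and `K` on the class
-/

set_option linter.all false

open Set Filter Topology
open scoped SchwartzMap

namespace Vale.Agent.P352X.Pf

open Vale.Agent.P352 Vale.Agent.P352.GF Vale.Agent.P352.H15
open UniformSpace (Completion)
open Complex (I)
open TPD (TT)
open KDa (dS mS barL)
open G1 (Hs)
open Real (exp)

noncomputable section

variable {D : Type*} [NormedAddCommGroup D] [InnerProductSpace ℂ D] {c : Ctx D}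
  {φ φ' σ κ : TT D} {f g : Sch} {u u' : ℝ}

theorem loc0_of {ψ : Sch → Completion D} {F : ℝ → Sch → Completion D}
    (e : ∀ u f, Ad u f → ψ f = F u f)
    (lin : ∀ u f g (a : ℂ), Ad u f → Ad u g → F u (f + a • g) = F u f + a • F u g)
    (bd : ∀ u K, IsCompact K → K ⊆ Hs u → BD K fun f => ‖F u f‖)
    (tra : ∀ u a f, Ad u f → Ut c.Q a (F u f) = F (u + be a) (ST.tsl a f)) : Loc0 c ψ := by
  have l : ∀ (f g : Sch) (a : ℂ), HasCompactSupport f → HasCompactSupport g →
      ψ (f + a • g) = ψ f + a • ψ g := fun f g a hf hg => by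
    obtain ⟨u, h1, h2⟩ := ((ev_ad hf).and (ev_ad hg)).exists
    rw [e u f h1, e u g h2, ← lin u f g a h1 h2, e u _ (h1.lin h2 a)]
  have z : HasCompactSupport (0 : Sch) := HasCompactSupport.zero
  have k0 : ψ 0 = 0 := by simpa using l 0 0 1 z z
  refine ⟨fun f g hf hg => by simpa using l f g 1 hf hg, fun a f hf => by
    simpa [k0] using l 0 f a z hf, fun a f hf => ?_, fun K hK => ?_⟩
  · obtain ⟨u, h⟩ := (ev_ad hf).exists
    rw [e u f h, tra u a f h, e _ _ (h.tsl a le_rfl)]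
  · obtain ⟨u, h⟩ := (G1.ex_hs hK).exists
    obtain ⟨q, q1, q2, q3⟩ := bd u K hK h
    refine ⟨q, q1, q2, fun f hf => ?_⟩
    beta_reduce
    rw [e u f ⟨hK.of_isClosed_subset (isClosed_tsupport _) hf, hf.trans h⟩]
    exact q3 f hf

theorem BD.sub {K : Set V} {A B : Sch → Completion D} (h : BD K fun f => ‖A f‖)
    (h' : BD K fun f => ‖B f‖) : BD K fun f => ‖A f - B f‖ := by
  obtain ⟨q, q1, q2, q3⟩ := h
  obtain ⟨p, p1, p2, p3⟩ := h'
  exact ⟨fun f => q f + p f, q1.add p1, by simp [q2, p2],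
    fun f hf => norm_sub_le_of_le (q3 f hf) (p3 f hf)⟩

theorem mS_tsl (a : V) (l : V →L[ℝ] ℝ) (f : Sch) :
    mS l (ST.tsl a f) = ST.tsl a (mS l f + (l a : ℂ) • f) := by
  ext z
  simp [ST.tsl_apply, KDa.mS_apply]
  ring

/-- the relation that defines `S` and `K` -/
structure Kr (c : Ctx D) (φ σ κ : TT D) : Prop where
  ts : TC c σ
  tk : TC c κ
  eq : ∀ f, Ad 0 f → R0 c φ f = (2 : ℂ) • σ (mS beL f) + κ f

theorem Kr.r (h : Kr c φ σ κ) (hf : Ad u f) :
    R c φ u f = (2 : ℂ) • σ (mS beL f - (u : ℂ) • f) + κ f := by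
  rw [R, RY, h.eq _ (hf.tsl _ (by simp)), map_add, map_smul, h.ts, h.tk, tsl_mS, tsl_tsl,
    add_neg_cancel, tsl_zero]
  simp

theorem hs_open : IsOpen (Hs 0) := isOpen_lt cont_be continuous_const

theorem hs_ne : (Hs 0).Nonempty := ⟨-vb, by simp [Hs]⟩

theorem Kr.unique (g : GRP c) {σ' κ' : TT D} (h : Kr c φ σ κ) (h' : Kr c φ σ' κ') :
    σ = σ' ∧ κ = κ' := by
  have e : ∀ f, Ad (-1) f → σ f = σ' f := fun f hf => by
    have a := (h.r hf).symm.trans (h'.r hf)
    have b := (h.eq f (hf.le (by norm_num))).symm.trans (h'.eq f (hf.le (by norm_num)))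
    simp only [map_sub, map_smul] at a
    push_cast at a
    exact smul_right_injective _ (two_ne_zero (α := ℂ)) (by
      beta_reduce
      linear_combination (norm := module) a - b)
  have s : σ = σ' := sub_eq_zero.1 ((h.ts.sub h'.ts).van (O := Hs (-1))
    (isOpen_lt cont_be continuous_const) ⟨(-2 : ℝ) • vb, by simp [Hs]⟩
    fun f a b => sub_eq_zero.2 (e f ⟨a, b⟩))
  refine ⟨s, sub_eq_zero.1 ((h.tk.sub h'.tk).van hs_open hs_ne fun f a b => sub_eq_zero.2 ?_)⟩
  have := (h.eq f ⟨a, b⟩).symm.trans (h'.eq f ⟨a, b⟩)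
  rwa [s, add_right_inj] at this

open Classical in
/-- the pair `(S φ, K φ)` -/
def sk (c : Ctx D) (φ : TT D) : TT D × TT D :=
  if h : ∃ p : TT D × TT D, Kr c φ p.1 p.2 then h.choose else 0

/-- the operator `S` -/
def sg (c : Ctx D) (φ : TT D) : TT D := (sk c φ).1

/-- the operator `K` -/
def kp (c : Ctx D) (φ : TT D) : TT D := (sk c φ).2

theorem Kr.sk (h : Kr c φ σ κ) : Kr c φ (sg c φ) (kp c φ) := by
  have k : ∃ p : TT D × TT D, Kr c φ p.1 p.2 := ⟨(σ, κ), h⟩
  rw [sg, kp, Pf.sk, dif_pos k]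
  exact k.choose_spec

variable (t : T2 c) (E : EE c) (h : φ ∈ WW c)
include t E h

theorem slope : ∃ σ : TT D, TC c σ ∧ ∀ u u' f, Ad u f → Ad u' f →
    R c φ u f - R c φ u' f = ((u' : ℂ) - u) • (2 : ℂ) • σ f := by
  choose! w hw using fun (f : Sch) (hf : HasCompactSupport f) => (ev_ad hf).exists
  have A : ∀ u u' f, Ad u f → Ad u' f →
      R c φ u f - R c φ u' f = ((u' : ℂ) - u) • (R c φ (w f) f - R c φ (w f + 1) f) :=
    fun u u' f h1 h2 => by
      have h3 : tsupport f ⊆ Hs (min (min u u') (w f)) := fun z hz => show be z < _ from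
        lt_min (lt_min (h1.2 hz) (h2.2 hz)) ((hw f h1.1).2 hz)
      obtain ⟨lo, l1, l2⟩ := (((G1.ev_hs h1.1 h3).filter_mono nhdsWithin_le_nhds).and
        (self_mem_nhdsWithin (s := Iio (min (min u u') (w f))))).exists
      simp only [lt_min_iff] at l2
      obtain ⟨A, B, e⟩ := r_aff t h E ⟨h1.1, l1⟩ (max (max u u') (w f + 1) + 1)
      have m : ∀ v, lo < v → v ≤ max (max u u') (w f + 1) → _ := fun v a b =>
        e v ⟨a, b.trans_lt (lt_add_one _)⟩
      rw [m u l2.1.1 (by simp), m u' l2.1.2 (by simp), m (w f) l2.2 (by simp),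
        m (w f + 1) (by linarith [l2.2]) (by simp)]
      push_cast
      module
  obtain ⟨ν, n1, n2⟩ := Loc0.extend t.grp (loc0_of (c := c)
    (ψ := fun f => R c φ (w f) f - R c φ (w f + 1) f) (F := fun u f => R c φ u f - R c φ (u + 1) f)
    (fun u f hf => by simp [A u (u + 1) f hf (hf.le (by simp))])
    (fun u f g a hf hg => by
      rw [r_lin t h hf hg, r_lin t h (hf.le (by simp)) (hg.le (by simp))]
      module)
    (fun u K hK k => (r_bd t h hK k).sub (r_bd t h hK fun z hz => (k hz).trans (lt_add_one u)))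
    fun u a f hf => by rw [map_sub, r_tra t h hf, r_tra t h (hf.le (by simp)), add_right_comm])
  refine ⟨(1 / 2 : ℂ) • ν, n1.smul _, fun u u' f h1 h2 => ?_⟩
  rw [A u u' f h1 h2, ← n2 f h1.1, ContinuousLinearMap.smul_apply, smul_smul (2 : ℂ)]
  simp

theorem ex_kr : Kr c φ (sg c φ) (kp c φ) := by
  obtain ⟨σ, n, A⟩ := slope t E h
  choose! w hw using fun (f : Sch) (hf : HasCompactSupport f) => (ev_ad hf).exists
  have e : ∀ u f, Ad u f → R c φ (w f) f - (2 : ℂ) • σ (mS beL f - (w f : ℂ) • f) =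
      R c φ u f - (2 : ℂ) • σ (mS beL f - (u : ℂ) • f) := fun u f hf => by
    rw [eq_add_of_sub_eq (A _ _ f (hw f hf.1) hf)]
    simp only [map_sub, map_smul]
    module
  obtain ⟨κ, k1, k2⟩ := Loc0.extend t.grp (loc0_of (c := c) e
    (fun u f g a hf hg => by
      rw [r_lin t h hf hg]
      simp only [map_add, map_smul, map_sub, smul_add]
      module)
    (fun u K hK k => (r_bd t h hK k).sub ⟨_, (Continuous.fun_const_smul (σ.continuous.comp
      ((mS beL).continuous.sub (continuous_const_smul (u : ℂ)))) _).norm, by simp,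
        fun _ _ => le_rfl⟩)
    fun u a f hf => by
      rw [map_sub, r_tra t h hf, map_smul, n, mS_tsl]
      simp only [map_add, map_smul, map_sub, beL_apply]
      push_cast
      module)
  refine Kr.sk (σ := σ) (κ := κ) ⟨n, k1, fun f hf => ?_⟩
  rw [k2 f hf.1, e 0 f hf, R, RY, zero_smul, neg_zero, tsl_zero, t.grp.ut0]
  simp

theorem sk_eq (k : Kr c φ σ κ) : sg c φ = σ ∧ kp c φ = κ := (ex_kr t E h).unique t.grp k

theorem sk_lin {ψ : TT D} (h' : ψ ∈ WW c) (z : ℂ) :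
    sg c (φ + z • ψ) = sg c φ + z • sg c ψ ∧ kp c (φ + z • ψ) = kp c φ + z • kp c ψ := by
  have a := ex_kr t E h
  have b := ex_kr t E h'
  refine sk_eq t E (add_mem h ((WW c).smul_mem z h'))
    ⟨a.ts.add (b.ts.smul z), a.tk.add (b.tk.smul z), fun f hf => ?_⟩
  have a1 := a.eq f hf
  have b1 := b.eq f hf
  simp only [R0, mm_lin t.grp h h', ContinuousLinearMap.add_apply, ContinuousLinearMap.smul_apply,
    gen_add (dm t h hf) ((dm t h' hf).smul z), gen_smul z (dm t h' hf), Fin.sum_univ_two] at a1 b1 ⊢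
  linear_combination (norm := module) a1 + z • b1

omit E in
theorem r0_pr (h' : φ' ∈ WW c) (k : Lc c φ φ') {r : ℝ} (hr : 0 < r) (h1 : HasCompactSupport f)
    (h2 : tsupport f ⊆ Rc r 0) :
    Pr (c.N (Rc r 0)) c.Om (R0 c φ f) (R0 c φ' (barL f)) := by
  obtain ⟨r', r1, k1⟩ := G1.ex_rc h1 h2
  have s : ∀ g : Sch, tsupport g ⊆ tsupport f → HasCompactSupport g := fun g hg =>
    h1.of_isClosed_subset (isClosed_tsupport _) hg
  rw [R0, R0, ← bar_KS]
  simp only [← bar_mS]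
  refine ((t.kd.a2 r' r _ _ hr.le r1 (k r' (hr.trans r1) f h1 k1) (ws_bo (c := c) ▸ (mb_W h).dS _ _ _)
    (ws_bo (c := c) ▸ (mb_W h').dS _ _ _)).1.sub
      (k r hr _ (s _ (supp_KS f)) ((supp_KS f).trans h2))).sub ?_
  exact (Pr.sum _ fun i _ => mm_lc t.grp h h' k i r hr _ (s _ (supp_mS _ f))
    ((supp_mS _ f).trans h2)).csmul 2

omit t E h in
theorem rc_shift {r r' ε : ℝ} (hr : 0 < r) (hr' : 0 < r') (e0 : 0 < ε) (e : r' * (1 - 2 * r * ε) = r)
    (z : V) : z + ε • vb ∈ Rc r' 0 ↔ z ∈ Rc r 0 ∧ be z < -ε := by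
  have a : r * (1 + 2 * r' * (be z + ε)) = r' * (1 + 2 * r * be z) := by
    linear_combination -e
  have b : r * (al z + r' * (2 * al z * (be z + ε) - d2 (tx z) (tx z))) =
      r' * (al z + r * (2 * al z * be z - d2 (tx z) (tx z))) := by
    linear_combination (-al z) * e
  simp only [G1.mem_Rc, mu_eq, be_add, be_smul, be_vb, al_add, al_smul, al_vb, tx_add, tx_smul, tx_vb,
    mul_one, mul_zero, add_zero, smul_zero]
  rw [← mul_pos_iff_of_pos_left hr (b := 1 + _), a, mul_pos_iff_of_pos_left hr',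
    ← mul_pos_iff_of_pos_left hr (b := al z + r' * _), b, mul_pos_iff_of_pos_left hr']
  exact ⟨fun h => ⟨⟨by linarith [h.1], h.2⟩, by linarith [h.1]⟩,
    fun h => ⟨by linarith [h.2], h.1.2⟩⟩

theorem sk_lc (h' : φ' ∈ WW c) (k : Lc c φ φ') :
    Lc c (sg c φ) (sg c φ') ∧ Lc c (kp c φ) (kp c φ') := by
  have a := ex_kr t E h
  have b := ex_kr t E h'
  have ad : ∀ {r} {f : Sch}, HasCompactSupport f → tsupport f ⊆ Rc r 0 → Ad 0 f :=
    fun h1 h2 => ⟨h1, fun z hz => (G1.mem_Rc.1 (h2 hz)).1⟩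
  have ab : ∀ {u} {f : Sch}, Ad u f → Ad u (barL f) := fun hf => hf.sub (supp_bar _).le
  have s : Lc c (sg c φ) (sg c φ') := fun r hr f h1 h2 => by
    obtain ⟨v, v1, v2, v3⟩ := (((G1.ev_hs h1 (ad h1 h2).2).and (continuousAt_const.eventually_lt
      (f := fun _ => (0 : ℝ)) (g := fun v : ℝ => 1 + 2 * r * v) (by fun_prop) (by simp)) |>.filter_mono
        nhdsWithin_le_nhds).and (self_mem_nhdsWithin (s := Iio 0))).exists.imp
          fun _ q => and_assoc.1 q
    have v0 : 0 < -v := neg_pos.2 v3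
    have r0 : 0 < r / (1 + 2 * r * v) := div_pos hr v2
    have G := rc_shift hr r0 v0 (by
      rw [show 1 - 2 * r * (-v) = 1 + 2 * r * v by ring, div_mul_cancel₀ _ v2.ne'])
    have p := t.grp.pr_ut (r0_pr t h h' k r0 (cs_tsl h1 (-(v • vb))) fun z hz => by
      have := (G _).2 ⟨h2 (supp_tsl _ _ hz), by rw [neg_neg]; exact v1 (supp_tsl _ _ hz)⟩
      simpa using this) (v • vb) (O' := Rc r 0) fun z hz => ((G _).1 (by simpa using hz)).1
    have q := (p.sub (r0_pr t h h' k hr h1 h2)).csmul (-2 * v)⁻¹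
    have v4 : (v : ℂ) ≠ 0 := Complex.ofReal_ne_zero.2 (ne_of_lt v3)
    refine q.cast ?_ ?_
    · rw [← RY, ← R, a.r ⟨h1, v1⟩, a.eq f (ad h1 h2), map_sub, map_smul]
      push_cast
      match_scalars <;> field_simp <;> ring
    · rw [bar_tsl, ← RY, ← R, b.r (ab ⟨h1, v1⟩), b.eq _ (ab (ad h1 h2)), map_sub, map_smul]
      push_cast
      match_scalars <;> field_simp <;> ring
  refine ⟨s, fun r hr f h1 h2 => ?_⟩
  have p := (r0_pr t h h' k hr h1 h2).sub ((s r hr _ ((ad h1 h2).sub (supp_mS beL f)).1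
    ((supp_mS beL f).trans h2)).csmul 2)
  rw [a.eq f (ad h1 h2), b.eq _ (ab (ad h1 h2)), bar_mS] at p
  simpa using p

end

end Vale.Agent.P352X.Pf
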