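import Vale.Agent.P352X.TPD.Defs
import Vale.Agent.P352X.R.TWO.Mu
import Vale.Agent.P352X.CA.NL
import Vale.Agent.P352X.Api2b

/-!
# P352NA, block PF: the spectrum condition for translation covariant distributions
-/

set_option linter.all false

open MeasureTheory Measure Set Filter Topology
open scoped SchwartzMap ComplexConjugate NNReal ENNReal

namespace Vale.Agent.P352X.Pf

open Vale.Agent.P352 Vale.Agent.P352.GF Vale.Agent.P352.BW Vale.Agent.P352.H496
open Vale.Agent.P352.H755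
open UniformSpace (Completion)
open Complex (I)
open TPD (TT)
open CA (Cn Nl Z0 e0)
open KDa (dS mS)
open Two (sq2 g0 gS g0_in g0_ne cont_k meas_sq2 bd_ft rho nu_eq rel_clm ftp ftp_apply)

noncomputable section

/-! ## test functions that vanish on the cone in momentum space -/

/-- the Fourier transform vanishes on the cone -/
def Nu : Submodule ℂ Sch where
  carrier := {f | ∀ p ∈ Cn, ftp p f = 0}
  add_mem' h h' p hp := by rw [map_add, h p hp, h' p hp, add_zero]
  zero_mem' p _ := map_zero _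
  smul_mem' a _ h p hp := by rw [map_smul, h p hp, smul_zero]

theorem mem_Nu {f : Sch} : f ∈ Nu ↔ Nl (ev f) := by
  simp only [Nl, ← ftp_apply]
  rfl

theorem dS_apply (a : V) (f : Sch) (z : V) : dS a f z = fderiv ℝ f z a := rfl

theorem Nu_d (a : V) {f : Sch} (h : f ∈ Nu) : dS a f ∈ Nu := mem_Nu.2 fun p hp => by
  rw [KDa.ev_dS, ft_dv ⟨f, rfl⟩, mem_Nu.1 h p hp, mul_zero]

/-- the coordinates -/
abbrev pj (m : Ix) : V →L[ℝ] ℝ := ContinuousLinearMap.proj m

theorem mS_sum (l : V →L[ℝ] ℝ) (f : Sch) :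
    mS l f = ∑ m, (l (bas m 1) : ℂ) • mS (pj m) f := by
  ext z
  rw [SchwartzMap.sum_apply]
  simp only [KDa.mS_apply, SchwartzMap.smul_apply, smul_eq_mul, ← mul_assoc, ← Finset.sum_mul]
  congr 1
  conv_lhs => rw [← Ap.sum_bas z]
  simp [mul_comm]

theorem ev_xg (m : Ix) (f : Sch) : ev (mS (pj m) f) = xg m (ev f) :=
  funext fun z => KDa.mS_apply _ _ _

theorem Nu_m (l : V →L[ℝ] ℝ) {f : Sch} (h : f ∈ Nu) : mS l f ∈ Nu := by
  rw [mS_sum]
  refine Nu.sum_mem fun m _ => Nu.smul_mem _ (mem_Nu.2 ?_)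
  rw [ev_xg]
  exact CA.nul_row.xg m _ ⟨f, rfl⟩ (mem_Nu.1 h)

theorem Nu_z (l : V →L[ℝ] ℝ) {f : Sch} (h : Z0 (ev f)) : mS l f - (I * l e0) • f ∈ Nu := by
  have e : (I * l e0) • f = ∑ m, (l (bas m 1) : ℂ) • ((I * e0 m) • f) := by
    simp only [smul_smul, ← Finset.sum_smul]
    congr 1
    conv_lhs => rw [← Ap.sum_bas e0]
    simp [Finset.mul_sum, mul_comm, mul_left_comm, mul_assoc]
  rw [mS_sum, e, ← Finset.sum_sub_distrib]
  refine Nu.sum_mem fun m _ => ?_
  rw [← smul_sub]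
  refine Nu.smul_mem _ (mem_Nu.2 ?_)
  have := CA.nul_row.z0 m _ ⟨f, rfl⟩ h
  rwa [← ev_xg] at this

variable {D : Type*} [NormedAddCommGroup D] [InnerProductSpace ℂ D] {c : Ctx D} {φ : TT D}

/-- translation covariance -/
def TC (c : Ctx D) (φ : TT D) : Prop := ∀ a f, Ut c.Q a (φ f) = φ (ST.tsl a f)

namespace TC

theorem zero : TC c 0 := fun _ _ => by simp

theorem add {ψ : TT D} (h : TC c φ) (h' : TC c ψ) : TC c (φ + ψ) := fun a f => by
  simp [h a f, h' a f]

theorem smul (z : ℂ) (h : TC c φ) : TC c (z • φ) := fun a f => by simp [h a f]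

theorem sub {ψ : TT D} (h : TC c φ) (h' : TC c ψ) : TC c (φ - ψ) := fun a f => by
  simp [h a f, h' a f]

theorem rel (h : TC c φ) (f g : Sch) :
    c.bt.Phi (ft (ev g)) (φ f) = c.bt.Phi (ft (ev f)) (φ g) :=
  rel_clm φ (fun y _ => (h y f).symm) fun y _ => (h y g).symm

theorem lint (h : TC c φ) (f : Sch) :
    ∫⁻ p, sq2 (ft (ev f)) p ∂rho c (φ gS) = ENNReal.ofReal (‖φ f‖ ^ 2) := by
  rw [← c.bt.nu_univ, ofReal_measureReal,
    show c.bt.nu (φ f) = _ from nu_eq (bd_ft ⟨f, rfl⟩) (h.rel f gS),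
    withDensity_apply _ MeasurableSet.univ, restrict_univ]

theorem cone (b : BAS c) (v : Completion D) : ∀ᵐ p ∂rho c v, p ∈ Cn :=
  withDensity_absolutelyContinuous _ _ (b.cone v)

theorem mono (b : BAS c) (h : TC c φ) {f g : Sch} {C : ℝ} (hC : 0 ≤ C)
    (e : ∀ p ∈ Cn, ‖ft (ev f) p‖ ≤ C * ‖ft (ev g) p‖) : ‖φ f‖ ≤ C * ‖φ g‖ := by
  have a : ENNReal.ofReal (‖φ f‖ ^ 2) ≤ ENNReal.ofReal (C ^ 2) * ENNReal.ofReal (‖φ g‖ ^ 2) := by
    rw [← h.lint f, ← h.lint g, ← lintegral_const_mul _ (meas_sq2 (bd_ft ⟨g, rfl⟩).1)]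
    refine lintegral_mono_ae ((cone b _).mono fun p hp => ?_)
    rw [sq2, sq2, ← ENNReal.ofReal_mul (by positivity), ← mul_pow]
    exact ENNReal.ofReal_le_ofReal (pow_le_pow_left₀ (norm_nonneg _) (e p hp) 2)
  rw [← ENNReal.ofReal_mul (by positivity), ENNReal.ofReal_le_ofReal_iff (by positivity),
    ← mul_pow] at a
  exact (pow_le_pow_iff_left₀ (norm_nonneg _) (by positivity) two_ne_zero).1 a

theorem nu (b : BAS c) (h : TC c φ) {f : Sch} (hf : f ∈ Nu) : φ f = 0 := by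
  have := h.mono b (f := f) (g := f) le_rfl fun p hp => by
    rw [mem_Nu.1 hf p hp, norm_zero, mul_zero]
  rw [zero_mul] at this
  exact norm_le_zero_iff.1 this

theorem congr (b : BAS c) (h : TC c φ) {f g : Sch} (hf : f - g ∈ Nu) : φ f = φ g := by
  have := h.nu b hf
  rwa [map_sub, sub_eq_zero] at this

theorem inj (b : BAS c) (h : TC c φ) {f0 : Sch} (h0 : Z0 (ev f0)) (e : φ f0 = 0) : φ = 0 := by
  have a := h.lint f0
  rw [e, norm_zero, zero_pow two_ne_zero, ENNReal.ofReal_zero,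
    lintegral_eq_zero_iff (meas_sq2 (bd_ft ⟨f0, rfl⟩).1)] at a
  have z : rho c (φ gS) = 0 := by
    refine ae_eq_bot.1 (eventually_false_iff_eq_bot.1 ?_)
    filter_upwards [a, cone b (φ gS)] with p h1 h2
    rw [sq2, h0 p h2] at h1
    exact (ENNReal.ofReal_pos.2 (pow_pos (norm_pos_iff.2 (Complex.exp_ne_zero _)) 2)).ne' h1
  ext1 g
  have := h.lint g
  rw [z, lintegral_zero_measure, eq_comm, ENNReal.ofReal_eq_zero] at this
  exact norm_eq_zero.1 (pow_eq_zero_iff two_ne_zero |>.1 (le_antisymm this (by positivity)))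

/-- contraction along `b` costs at most the factor `s ^ (-2)` -/
theorem scal (b : BAS c) (h : TC c φ) {f0 g : Sch} (h0 : Z0 (ev f0)) {s : ℝ} (s0 : 0 < s)
    (s1 : s ≤ 1) (e : ∀ z, g z = f0 (scp 1 s z)) : ‖φ g‖ ≤ (s ^ 2)⁻¹ * ‖φ f0‖ := by
  refine h.mono b (by positivity) fun p hp => ?_
  have hp' := (cone_iff p).1 hp
  have hq : scp s⁻¹ 1⁻¹ p ∈ Cn := by
    refine (cone_iff _).2 ⟨by simpa using mul_nonneg (inv_pos.2 s0).le hp'.1, by simpa using hp'.2.1, ?_⟩
    simp only [tx_scp, al_scp, be_scp, d2_smul, d2_smul_l, ← mul_assoc, inv_one, mul_one, one_mul,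
      Real.mul_self_sqrt (inv_pos.2 s0).le]
    nlinarith [hp'.2.2, inv_pos.2 s0]
  rw [show ev g = fun z => ev f0 (scp 1 s z) from funext e, ft_scp one_pos s0, norm_mul, one_mul,
    Complex.norm_real, Real.norm_of_nonneg (by positivity), h0 _ hq, h0 p hp, Complex.norm_exp,
    Complex.norm_exp]
  refine mul_le_mul_of_nonneg_left (Real.exp_le_exp.2 ?_) (by positivity)
  simp only [Complex.neg_re, Complex.ofReal_re, time_eq, al_scp, be_scp, inv_one, one_mul]
  nlinarith [hp'.1, (one_le_inv₀ s0).2 s1]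

/-- a translation covariant distribution that vanishes on an open set vanishes -/
theorem van (h : TC c φ) {O : Set V} (hO : IsOpen O) (hn : O.Nonempty)
    (e : ∀ f : Sch, HasCompactSupport f → tsupport f ⊆ O → φ f = 0) : φ = 0 := by
  obtain ⟨y, hy⟩ := hn
  obtain ⟨δ, δ0, hδ⟩ := Metric.isOpen_iff.1 hO y hy
  ext1 g
  refine ST.vanish_local φ g fun q _ => ⟨δ, δ0, fun f hf => ?_⟩
  have k : tsupport (ST.tsl (y - q) f) ⊆ Metric.ball y δ := fun z hz => by
    have := hf (tsupport_comp_subset_preimage f (continuous_sub_right (y - q)) hz)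
    rw [Metric.mem_ball, dist_eq_norm] at this ⊢
    rwa [show z - y = z - (y - q) - q by abel]
  have z := e _ ((isCompact_closedBall y δ).of_isClosed_subset (isClosed_tsupport _)
    (k.trans Metric.ball_subset_closedBall)) (k.trans hδ)
  have := h (q - y) (ST.tsl (y - q) f)
  rw [z, map_zero] at this
  rw [this]
  congr 1
  ext z
  simp [ST.tsl_apply]

end TC

end

end Vale.Agent.P352X.Pf
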