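import Vale.Agent.P352NA.PF.Act

/-!
# P352NA, block PF: symmetries and their action on distributions
-/

set_option linter.all false

open Set Filter Topology
open scoped SchwartzMap

namespace Vale.Agent.P352X.Pf

open Vale.Agent.P352 Vale.Agent.P352.GF Vale.Agent.P352.H15
open Vale.Agent.P352.H246 (In)
open UniformSpace (Completion)
open Complex (I)
open TPD (TT)
open KDa (dS mS barL)
open Real (exp)

noncomputable section

variable {D : Type*} [NormedAddCommGroup D] [InnerProductSpace ℂ D] {c : Ctx D}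
  {φ φ' ψ : TT D} {U U' : Completion D →L[ℂ] Completion D} {e e' : V ≃L[ℝ] V} {s : ℝ}

/-- the action on distributions -/
def ac (U : Completion D →L[ℂ] Completion D) (e : V ≃L[ℝ] V) : TT D →ₗ[ℂ] TT D where
  toFun φ := U ∘L φ ∘L pL e
  map_add' φ ψ := by ext f; simp
  map_smul' a φ := by ext f; simp

theorem ac_apply (f : Sch) : ac U e φ f = U (φ (pL e f)) := rfl

/-- pairs that are local in the cut cones -/
def Lc (c : Ctx D) (φ φ' : TT D) : Prop := ∀ r, 0 < r → ∀ f : Sch, HasCompactSupport f →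
  tsupport f ⊆ Rc r 0 → Pr (c.N (Rc r 0)) c.Om (φ f) (φ' (barL f))

theorem Lc.symm (h : Lc c φ φ') : Lc c φ' φ := fun r hr f h1 h2 => by
  have := h r hr (barL f) (by rwa [HasCompactSupport, supp_bar]) (by rwa [supp_bar])
  rw [bar_bar] at this
  exact this.symm

theorem Lc.zero : Lc c 0 0 := fun _ _ _ _ _ => Pr.zero

theorem Lc.add {ψ' : TT D} (h : Lc c φ φ') (h' : Lc c ψ ψ') : Lc c (φ + ψ) (φ' + ψ') :=
  fun r hr f h1 h2 => (h r hr f h1 h2).add (h' r hr f h1 h2)

theorem Lc.smul (z : ℂ) (h : Lc c φ φ') : Lc c (z • φ) (star z • φ') :=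
  fun r hr f h1 h2 => (h r hr f h1 h2).smul z

theorem mem_rc {r : ℝ} {y z : V} : z ∈ Rc r y ↔ z - y ∈ Rc r 0 := by
  simp only [Rc, mem_setOf_eq, sub_zero]

theorem bar_tsl (a : V) (f : Sch) : barL (ST.tsl a f) = ST.tsl a (barL f) := rfl

theorem Lc.tr (g : GRP c) (h : Lc c φ φ') (t : TC c φ) (t' : TC c φ') {r : ℝ} (hr : 0 < r) (y : V)
    {f : Sch} (h1 : HasCompactSupport f) (h2 : tsupport f ⊆ Rc r y) :
    Pr (c.N (Rc r y)) c.Om (φ f) (φ' (barL f)) := by
  have k := g.pr_ut (h r hr (ST.tsl (-y) f) (cs_tsl h1 _) fun z hz => by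
    simpa using mem_rc.1 (h2 (supp_tsl _ _ hz))) y (O' := Rc r y)
    fun z hz => mem_rc.2 (by simpa using hz)
  rwa [t, t', bar_tsl, tsl_tsl, tsl_tsl, add_neg_cancel, tsl_zero, tsl_zero] at k

theorem rc_open (r : ℝ) : IsOpen (Rc r 0) := by
  rw [show Rc r 0 = {z | be z < 0} ∩ ({z | 0 < 1 + 2 * r * be z} ∩ {z | 0 < al z + r * mu z}) from
    Set.ext fun z => G1.mem_Rc (r := r) (z := z)]
  exact (isOpen_lt cont_be continuous_const).inter ((isOpen_lt continuous_const (by fun_prop)).inter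
    (isOpen_lt continuous_const (by fun_prop)))

theorem rc_ne {r : ℝ} (hr : 0 < r) : (Rc r 0).Nonempty :=
  ⟨pt 1 (-(1 / (4 * r))) 0, G1.mem_Rc.2 ⟨by simp [hr], by
    simp only [be_pt]
    field_simp
    norm_num, by
    simp only [al_pt, mu_pt, d2_zero]
    field_simp
    norm_num⟩⟩

theorem rc_sub {r : ℝ} (hr : 0 < r) : Rc r 0 ⊆ H496.Wdg va vb 0 := fun z hz => by
  obtain ⟨h1, h2, h3⟩ := G1.mem_Rc.1 hz
  refine ⟨by simpa [md_va] using h1, ?_⟩
  rw [sub_zero, md_vb]
  rw [mu_eq] at h3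
  have := mul_nonneg hr.le (d2_nonneg (tx z))
  by_contra h
  nlinarith [mul_nonneg (neg_nonneg.2 (not_lt.1 h)) h2.le]

/-- the partner is unique -/
theorem Lc.unique (t : T1 c) {φ'' : TT D} (h : Lc c φ φ') (h' : Lc c φ φ'') (k : TC c φ')
    (k' : TC c φ'') : φ' = φ'' := by
  refine sub_eq_zero.1 ((k.sub k').van (rc_open 1) (rc_ne one_pos) fun f h1 h2 => ?_)
  have a := h 1 one_pos (barL f) (by rwa [HasCompactSupport, supp_bar]) (by rwa [supp_bar])
  have b := h' 1 one_pos (barL f) (by rwa [HasCompactSupport, supp_bar]) (by rwa [supp_bar])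
  rw [bar_bar] at a b
  exact sub_eq_zero.2 (a.unique b
    (t.jc.cyc_sub t.grp null_va null_vb (by simp [md_ab]) (rc_sub one_pos)))

/-- symmetries that scale `K` -/
structure Sy (c : Ctx D) (U : Completion D →L[ℂ] Completion D) (e : V ≃L[ℝ] V) (s : ℝ) :
    Prop where
  ut : ∀ y, U * Ut c.Q y = Ut c.Q (e y) * U
  s0 : 0 < s
  be : ∀ z, be (e z) = s * be z
  ck : ∀ z, cK va (e z) = s • e (cK va z)
  sk : ∀ r, U * c.SK r = c.SK (r / s) * U
  geo : ∀ r, 0 < r → ∃ r', 0 < r' ∧ ∃ y, ∀ z, e z ∈ Rc r 0 ↔ z ∈ Rc r' y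
  pr : ∀ O O' ψ ψ', (∀ z ∈ O, e z ∈ O') → Pr (c.N O) c.Om ψ ψ' → Pr (c.N O') c.Om (U ψ) (U ψ')

theorem pL_tsl (a : V) (f : Sch) : pL e (ST.tsl (e a) f) = ST.tsl a (pL e f) := by
  ext z
  simp [pL_apply, ST.tsl_apply]

theorem Sy.tc (y : Sy c U e s) (h : TC c φ) : TC c (ac U e φ) := fun a f => by
  obtain ⟨a, rfl⟩ := e.surjective a
  rw [ac_apply, ac_apply, pL_tsl, ← h, ← ContinuousLinearMap.mul_apply, ← y.ut]
  rfl

theorem Sy.lc (g : GRP c) (y : Sy c U e s) (h : Lc c φ φ') (t : TC c φ) (t' : TC c φ') :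
    Lc c (ac U e φ) (ac U e φ') := fun r hr f h1 h2 => by
  obtain ⟨r', r0, a, k⟩ := y.geo r hr
  exact y.pr _ _ _ _ (fun z hz => (k z).2 hz) (h.tr g t t' r0 a (cs_pL e h1)
    fun z hz => (k z).1 (h2 (supp_pL e f hz)))

/-- the scalings -/
def eS (x y : ℝ) : V ≃L[ℝ] V := (conf_scp (Real.exp_pos x) (Real.exp_pos y)).cle

/-- the null rotations -/
def eG (w : R2) : V ≃L[ℝ] V := (conf_gap w).cle

@[simp] theorem eS_apply (x y : ℝ) (z : V) : eS x y z = scp (exp x) (exp y) z := rfl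
@[simp] theorem eG_apply (w : R2) (z : V) : eG w z = gap w z := rfl

theorem sqrt_ee (x y : ℝ) : Real.sqrt (exp x * exp y) = exp ((x + y) / 2) := by
  rw [← Real.exp_add, Real.exp_half]

theorem sqrt_ed (x y : ℝ) : Real.sqrt (exp x / exp y) = exp ((x - y) / 2) := by
  rw [← Real.exp_sub, Real.exp_half]

theorem syS (g : GRP c) (x y : ℝ) : Sy c (Usc c.Q (exp x) (exp y)) (eS x y) (exp y) where
  ut a := g.sc_ut _ _ a (Real.exp_pos x) (Real.exp_pos y)
  s0 := Real.exp_pos y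
  be z := by simp
  ck z := null_ext (by
      simp only [eS_apply, G1.al_cK, tx_scp, al_smul, al_scp, d2_smul, d2_smul_l, ← mul_assoc,
        Real.mul_self_sqrt (mul_pos (Real.exp_pos x) (Real.exp_pos y)).le, mul_comm (exp y) (exp x)])
    (by simp [G1.be_cK]; ring) (by
      simp only [eS_apply, G1.tx_cK, tx_scp, be_scp, tx_smul]
      module)
  sk r := g.sc_S _ _ r (Real.exp_pos x) (Real.exp_pos y)
  geo r hr := ⟨r * exp y, mul_pos hr (Real.exp_pos y), 0, fun z => by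
    have hx := Real.exp_pos x
    have hy := Real.exp_pos y
    simp only [G1.mem_Rc, eS_apply, be_scp, al_scp, mu, md_scp _ _ (mul_pos hx hy).le]
    refine and_congr ⟨fun h => neg_of_mul_neg_right h hy.le, fun h => mul_neg_of_pos_of_neg hy h⟩
      (and_congr (by simp only [mul_assoc]) ?_)
    rw [← mul_pos_iff_of_pos_left hx (b := _ + r * exp y * _)]
    exact iff_of_eq (by congr 1; ring)⟩
  pr O O' ψ ψ' k h := g.pr_sc h (Real.exp_pos x) (Real.exp_pos y) k

theorem syG (g : GRP c) (w : R2) : Sy c (Ga c.Q w) (eG w) 1 where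
  ut a := g.ga_ut w a
  s0 := one_pos
  be z := by simp
  ck z := null_ext (by
    simp [G1.al_cK, G1.be_cK, G1.tx_cK, d2_add, d2_add_l, d2_smul, d2_smul_l, d2_comm w]; ring)
    (by simp [G1.be_cK]) (by
      simp only [eG_apply, G1.tx_cK, G1.be_cK, tx_gap, be_gap, one_smul]
      module)
  sk r := by simpa using g.ga_S w r
  geo r hr := ⟨r, hr, pt (-(d2 w w / (4 * r))) 0 ((2 * r)⁻¹ • w), fun z => by
    rw [mem_rc (y := pt _ _ _)]
    simp only [G1.mem_Rc, eG_apply, be_gap, al_gap, be_sub, be_pt, sub_zero, al_sub, al_pt]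
    refine and_congr_right fun _ => and_congr_right fun _ => iff_of_eq ?_
    congr 1
    simp only [mu_eq, al_gap, be_gap, tx_gap, al_sub, be_sub, tx_sub, al_pt, be_pt, tx_pt, d2_add,
      d2_add_l, d2_sub, d2_sub_l, d2_smul, d2_smul_l, d2_comm (tx z) w]
    field_simp
    ring⟩
  pr O O' ψ ψ' k h := g.pr_ga h w k

/-- the scalings act -/
def aS (c : Ctx D) (x y : ℝ) : TT D →ₗ[ℂ] TT D := ac (Usc c.Q (exp x) (exp y)) (eS x y)

/-- the null rotations act -/
def aG (c : Ctx D) (w : R2) : TT D →ₗ[ℂ] TT D := ac (Ga c.Q w) (eG w)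

theorem ac_ac {U1 U1' : Completion D →L[ℂ] Completion D} {e1 e1' : V ≃L[ℝ] V}
    (h : U * U' = U1 * U1') (k : ∀ z, e (e' z) = e1 (e1' z)) :
    ac U e (ac U' e' φ) = ac U1 e1 (ac U1' e1' φ) := by
  ext1 f
  simp only [ac_apply]
  rw [← ContinuousLinearMap.mul_apply, h,
    show pL e' (pL e f) = pL e1' (pL e1 f) from SchwartzMap.ext fun z => congrArg f (k z)]
  rfl

theorem ac_mul {U1 : Completion D →L[ℂ] Completion D} {e1 : V ≃L[ℝ] V}
    (h : U1 = U * U') (k : ∀ z, e1 z = e (e' z)) : ac U e (ac U' e' φ) = ac U1 e1 φ := by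
  ext1 f
  simp only [ac_apply]
  rw [h, show pL e1 f = pL e' (pL e f) from SchwartzMap.ext fun z => congrArg f (k z)]
  rfl

theorem aS_aS (g : GRP c) (x y x' y' : ℝ) : aS c x y (aS c x' y' φ) = aS c (x + x') (y + y') φ :=
  ac_mul (by
    rw [Real.exp_add, Real.exp_add]
    exact g.sc _ _ _ _ (Real.exp_pos _) (Real.exp_pos _) (Real.exp_pos _) (Real.exp_pos _))
    fun z => by simp [scp_scp _ (Real.exp_pos _).le (Real.exp_pos _).le, Real.exp_add]

theorem aG_aG (g : GRP c) (v w : R2) : aG c v (aG c w φ) = aG c (v + w) φ :=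
  ac_mul (g.ga v w) fun z => by simp [gap_gap]

theorem aS_aG (g : GRP c) (x y : ℝ) (w : R2) :
    aS c x y (aG c w φ) = aG c (exp ((x - y) / 2) • w) (aS c x y φ) :=
  ac_ac (by rw [← sqrt_ed]; exact g.sc_ga _ _ w (Real.exp_pos _) (Real.exp_pos _)) fun z => by
    have a : exp x = exp ((x - y) / 2) * exp ((x + y) / 2) := by
      rw [← Real.exp_add]; congr 1; ring
    have b : exp ((x + y) / 2) = exp ((x - y) / 2) * exp y := by
      rw [← Real.exp_add]; congr 1; ring
    refine null_ext ?_ (by simp) ?_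
    · simp only [eS_apply, eG_apply, al_scp, al_gap, tx_scp, be_scp, sqrt_ee, d2_smul, d2_smul_l]
      rw [a, b]
      ring
    · simp only [eS_apply, eG_apply, tx_scp, tx_gap, be_scp, sqrt_ee, b]
      module

/-- one parameter groups of symmetries -/
structure Fl (W : ℝ → Completion D →L[ℂ] Completion D) (e : ℝ → V ≃L[ℝ] V) (X : V →L[ℝ] V) :
    Prop where
  ug : UG W
  e0 : ∀ z, e 0 z = z
  ea : ∀ s t z, e (s + t) z = e s (e t z)
  der : HasDerivAt (fun t => (e t : V →L[ℝ] V)) X 0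

/-- the scaling groups -/
def Ws (c : Ctx D) (x y t : ℝ) : Completion D →L[ℂ] Completion D :=
  Usc c.Q (exp (x * t)) (exp (y * t))

/-- the vector fields of the scalings -/
def XS (x y : ℝ) : V →L[ℝ] V :=
  x • alL.smulRight va + y • beL.smulRight vb + ((x + y) / 2) • tvL.comp txL

/-- the vector fields of the null rotations -/
def XM (i : Fin 2) : V →L[ℝ] V := (xL i).smulRight va + beL.smulRight (ex i)

theorem flS (g : GRP c) (x y : ℝ) : Fl (Ws c x y) (fun t => eS (x * t) (y * t)) (XS x y) where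
  ug := g.ugSc x y
  e0 z := by simp
  ea s t z := by simp [scp_scp _ (Real.exp_pos _).le (Real.exp_pos _).le, mul_add, Real.exp_add]
  der := by
    have d : ∀ a : ℝ, HasDerivAt (fun t => exp (a * t)) a 0 := fun a => by
      simpa using ((hasDerivAt_id' (0 : ℝ)).const_mul a).exp
    refine ((((d x).smul_const (alL.smulRight va)).fun_add ((d y).smul_const
      (beL.smulRight vb))).fun_add ((d ((x + y) / 2)).smul_const
        (tvL.comp txL))).congr_of_eventuallyEq (.of_forall fun t => ?_)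
    ext1 z
    refine null_ext (by simp) (by simp) ?_
    simp [sqrt_ee]
    congr 2
    ring

theorem flM (g : GRP c) (i : Fin 2) : Fl (Mi c.Q i) (fun t => eG (t • e2 i)) (XM i) where
  ug := g.ugM i
  e0 z := by simp
  ea s t z := by simp [gap_gap, add_smul]
  der := by
    have d := hasDerivAt_id' (0 : ℝ)
    refine ((((d.smul_const (XM i)).const_add 1).fun_add (((d.fun_pow 2).div_const 2).smul_const
      (beL.smulRight va))).congr_of_eventuallyEq (.of_forall fun t => ?_)).congr_deriv (by simp)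
    ext1 z
    refine null_ext ?_ (by simp [XM]) (by simp [XM, smul_comm t])
    simp [XM, d2_smul, d2_smul_l]
    ring

theorem ws_bo : Ws c 1 (-1) = Bo c.Q := funext fun t => by simp [Ws, Bo]

variable {W : ℝ → Completion D →L[ℂ] Completion D} {ε : ℝ → V ≃L[ℝ] V} {X : V →L[ℝ] V}

theorem Fl.ac0 (k : Fl W ε X) : ac (W 0) (ε 0) φ = φ := by
  ext1 f
  rw [ac_apply, k.ug.zero, show pL (ε 0) f = f from SchwartzMap.ext fun z => congrArg f (k.e0 z)]

theorem Fl.acA (k : Fl W ε X) (s t : ℝ) :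
    ac (W s) (ε s) (ac (W t) (ε t) φ) = ac (W (s + t)) (ε (s + t)) φ :=
  ac_mul (k.ug.add' s t) (k.ea s t)

theorem Fl.back (k : Fl W ε X) (t : ℝ) (f : Sch) :
    W t (φ f) = ac (W t) (ε t) φ (pL (ε (-t)) f) := by
  rw [ac_apply]
  congr 2
  ext z
  rw [pL_apply, pL_apply, ← k.ea, neg_add_cancel, k.e0]

theorem Fl.dneg (k : Fl W ε X) (f : Sch) (Λ : TT D) :
    HasDerivAt (fun t => Λ (pL (ε (-t)) f)) (Λ (-vS X f)) 0 := by
  have := (show HasDerivAt (fun t => Λ (pL (ε t) f)) _ (-0) by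
    rw [neg_zero]; exact der_pL Λ k.der k.e0 f).scomp 0 (hasDerivAt_neg (0 : ℝ))
  simpa [Function.comp_def] using this

theorem Fl.pL0 (k : Fl W ε X) (f : Sch) : pL (ε (-0)) f = f :=
  SchwartzMap.ext fun z => by rw [neg_zero, pL_apply, k.e0]

theorem Fl.hd (k : Fl W ε X) {f : Sch} {v : Completion D} (h : Gn W (φ f) v) :
    HasDerivAt (fun t => ac (W t) (ε t) φ f) (I • v + φ (vS X f)) 0 := by
  have := k.ug.hasDerivAt_comp (hasDerivAt_id' (0 : ℝ)) (der_pL φ k.der k.e0 f)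
    (h.cast (by rw [← neg_zero, k.pL0]) rfl)
  simp only [one_smul, k.ug.zero] at this
  exact this

/-- the generator in terms of the derivative of the action -/
theorem Fl.gn (k : Fl W ε X) (h : HD (fun t => ac (W t) (ε t) φ) ψ) {f : Sch} (hf : Dm W (φ f)) :
    I • gen W (φ f) = ψ f - φ (vS X f) :=
  eq_sub_of_add_eq ((k.hd hf.gn).unique (h f))

theorem TC.gn (h : TC c φ) (a : V) (f : Sch) :
    Gn (fun t => Ut c.Q (t • a)) (φ f) (I • φ (dS a f)) := by
  rw [Gn, smul_smul, Complex.I_mul_I, neg_one_smul]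
  simpa only [h _ f] using der_tsl φ a f

end

end Vale.Agent.P352X.Pf
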